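import Mathlib

/-!
Part B: a second moment (point-line incidence) bound over `ZMod P`.
If `A`, `B` are subsets of `ZMod P` with `0 ∉ A` and `(|A||B|)^2 > P^3`, then every nonzero
residue is of the form `a₁ b₁ + a₂ b₂` with `aᵢ ∈ A`, `bᵢ ∈ B`.
-/

namespace Vale.Agent.Lib.P012

open Finset

variable {P : ℕ} [Fact P.Prime]

/-- The solutions `b` of the linear equation `a · b = m`. -/
def lineSet (m : ZMod P) (a : ZMod P × ZMod P) : Finset (ZMod P × ZMod P) :=
  Finset.univ.filter (fun b => a.1 * b.1 + a.2 * b.2 = m)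

lemma card_lineSet (m : ZMod P) (a : ZMod P × ZMod P) (ha : a.1 ≠ 0) :
    (lineSet m a).card = P := by
  have : lineSet m a = (Finset.univ : Finset (ZMod P)).image
      (fun y => ((m - a.2 * y) / a.1, y)) := by
    ext ⟨x, y⟩
    simp only [lineSet, mem_filter, mem_univ, true_and, mem_image, Prod.mk.injEq]
    constructor
    · intro h
      refine ⟨y, ?_, rfl⟩
      field_simp
      linear_combination -h
    · rintro ⟨y', h1, rfl⟩
      rw [← h1]
      field_simp
      ring
  rw [this, Finset.card_image_of_injective _ (fun y y' h => (Prod.mk.inj h).2)]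
  simp [ZMod.card]

lemma card_inter_lineSet_le_one (m : ZMod P) (hm : m ≠ 0) (a a' : ZMod P × ZMod P)
    (ha : a.1 ≠ 0) (hne : a ≠ a') :
    (lineSet m a ∩ lineSet m a').card ≤ 1 := by
  rw [Finset.card_le_one]
  rintro ⟨x, y⟩ hb ⟨x', y'⟩ hb'
  simp only [lineSet, mem_inter, mem_filter, mem_univ, true_and] at hb hb'
  obtain ⟨h1, h2⟩ := hb
  obtain ⟨h3, h4⟩ := hb'
  -- the differences satisfy a homogeneous system
  have e1 : a.1 * (x - x') + a.2 * (y - y') = 0 := by linear_combination h1 - h3
  have e2 : a'.1 * (x - x') + a'.2 * (y - y') = 0 := by linear_combination h2 - h4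
  by_cases hy : y = y'
  · subst hy
    have hx : x = x' := by
      have : a.1 * (x - x') = 0 := by simpa using e1
      have := (mul_eq_zero.1 this).resolve_left ha
      exact sub_eq_zero.1 this
    rw [hx]
  · exfalso
    have hy' : y - y' ≠ 0 := sub_ne_zero.2 hy
    have hdet : a.1 * a'.2 = a'.1 * a.2 := by
      have : (a.1 * a'.2 - a'.1 * a.2) * (y - y') = 0 := by
        linear_combination a.1 * e2 - a'.1 * e1
      have := (mul_eq_zero.1 this).resolve_right hy'
      exact sub_eq_zero.1 this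
    -- hence `a'` is proportional to `a`, and the common value `m ≠ 0` forces equality
    have hc : (a'.1 - a.1) * m = 0 := by
      have : a'.1 * m = a.1 * m := by
        calc a'.1 * m = a'.1 * (a.1 * x + a.2 * y) := by rw [h1]
          _ = a.1 * (a'.1 * x + a'.2 * y) := by linear_combination (-y) * hdet
          _ = a.1 * m := by rw [h2]
      linear_combination this
    have h11 : a'.1 = a.1 := sub_eq_zero.1 ((mul_eq_zero.1 hc).resolve_right hm)
    have h22 : a'.2 = a.2 := by
      rw [h11] at hdet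
      exact mul_left_cancel₀ ha hdet
    exact hne (Prod.ext h11.symm h22.symm)

/-- The incidence count of `b` with the set `X`. -/
def incCount (m : ZMod P) (X : Finset (ZMod P × ZMod P)) (b : ZMod P × ZMod P) : ℕ :=
  (X.filter (fun a => a.1 * b.1 + a.2 * b.2 = m)).card

lemma sum_incCount (m : ZMod P) (X : Finset (ZMod P × ZMod P)) (hX : ∀ a ∈ X, a.1 ≠ 0) :
    ∑ b, incCount m X b = X.card * P := by
  have := Finset.sum_card_bipartiteAbove_eq_sum_card_bipartiteBelow
    (fun (a b : ZMod P × ZMod P) => a.1 * b.1 + a.2 * b.2 = m) (s := X)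
    (t := (Finset.univ : Finset (ZMod P × ZMod P)))
  simp only [Finset.bipartiteAbove, Finset.bipartiteBelow] at this
  unfold incCount
  rw [← this]
  calc ∑ a ∈ X, (Finset.univ.filter (fun b : ZMod P × ZMod P => a.1 * b.1 + a.2 * b.2 = m)).card
      = ∑ a ∈ X, P := Finset.sum_congr rfl (fun a ha => card_lineSet m a (hX a ha))
    _ = X.card * P := by simp

lemma sum_incCount_sq_le (m : ZMod P) (hm : m ≠ 0) (X : Finset (ZMod P × ZMod P))
    (hX : ∀ a ∈ X, a.1 ≠ 0) :
    ∑ b, incCount m X b ^ 2 ≤ X.card * (P + X.card) := by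
  classical
  have key : ∀ b : ZMod P × ZMod P, incCount m X b ^ 2 =
      ∑ a ∈ X, ∑ a' ∈ X, (if b ∈ lineSet m a ∩ lineSet m a' then 1 else 0) := by
    intro b
    have h1 : incCount m X b = ∑ a ∈ X, (if b ∈ lineSet m a then 1 else 0) := by
      unfold incCount
      rw [Finset.card_filter]
      simp [lineSet]
    rw [h1, sq, Finset.sum_mul_sum]
    refine Finset.sum_congr rfl (fun a _ => Finset.sum_congr rfl (fun a' _ => ?_))
    by_cases h : b ∈ lineSet m a <;> by_cases h' : b ∈ lineSet m a' <;> simp [h, h']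
  calc ∑ b, incCount m X b ^ 2
      = ∑ b, ∑ a ∈ X, ∑ a' ∈ X, (if b ∈ lineSet m a ∩ lineSet m a' then 1 else 0) :=
        Finset.sum_congr rfl (fun b _ => key b)
    _ = ∑ a ∈ X, ∑ a' ∈ X, ∑ b, (if b ∈ lineSet m a ∩ lineSet m a' then 1 else 0) := by
        rw [Finset.sum_comm]
        refine Finset.sum_congr rfl (fun a _ => ?_)
        rw [Finset.sum_comm]
    _ = ∑ a ∈ X, ∑ a' ∈ X, (lineSet m a ∩ lineSet m a').card := by
        refine Finset.sum_congr rfl (fun a _ => Finset.sum_congr rfl (fun a' _ => ?_))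
        rw [Finset.sum_boole]
        simp only [Nat.cast_id]
        congr 1
        ext b
        simp
    _ ≤ ∑ a ∈ X, (P + X.card) := by
        refine Finset.sum_le_sum (fun a ha => ?_)
        calc ∑ a' ∈ X, (lineSet m a ∩ lineSet m a').card
            ≤ ∑ a' ∈ X, ((if a' = a then P else 0) + 1) := by
              refine Finset.sum_le_sum (fun a' ha' => ?_)
              by_cases h : a' = a
              · subst h
                simp only [Finset.inter_self, if_true]
                rw [card_lineSet m a' (hX a' ha)]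
                exact Nat.le_succ _
              · simp only [if_neg h, zero_add]
                exact card_inter_lineSet_le_one m hm a a' (hX a ha) (Ne.symm h)
          _ = P + X.card := by
              rw [Finset.sum_add_distrib, Finset.sum_ite_eq' X a]
              simp [ha]
    _ = X.card * (P + X.card) := by simp

/-- If no line of `Y` meets `X` then `|X||Y| ≤ P^3`. -/
lemma card_mul_card_le_of_no_incidence (m : ZMod P) (hm : m ≠ 0)
    (X Y : Finset (ZMod P × ZMod P)) (hX : ∀ a ∈ X, a.1 ≠ 0)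
    (hno : ∀ a ∈ X, ∀ b ∈ Y, a.1 * b.1 + a.2 * b.2 ≠ m) :
    X.card * Y.card ≤ P ^ 3 := by
  classical
  rcases X.eq_empty_or_nonempty with rfl | hne
  · simp
  have hP : 0 < P := (Fact.out : P.Prime).pos
  have hXpos : 0 < X.card := hne.card_pos
  -- work in `ℤ`
  set x : ℤ := (X.card : ℤ) with hx
  set p : ℤ := (P : ℤ) with hp
  have hcardU : ((Finset.univ : Finset (ZMod P × ZMod P)).card : ℤ) = p ^ 2 := by
    simp [ZMod.card, hp, sq]
  have s1 : ∑ b, (incCount m X b : ℤ) = x * p := by
    have := sum_incCount m X hX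
    rw [hx, hp]
    exact_mod_cast this
  have s2 : ∑ b, (incCount m X b : ℤ) ^ 2 ≤ x * (p + x) := by
    have := sum_incCount_sq_le m hm X hX
    rw [hx, hp]
    exact_mod_cast this
  have expand : ∑ b, ((p * (incCount m X b : ℤ) - x) ^ 2)
      = p ^ 2 * ∑ b, (incCount m X b : ℤ) ^ 2 - 2 * p * x * ∑ b, (incCount m X b : ℤ)
        + p ^ 2 * x ^ 2 := by
    have : ∀ b : ZMod P × ZMod P, (p * (incCount m X b : ℤ) - x) ^ 2
        = p ^ 2 * (incCount m X b : ℤ) ^ 2 - 2 * p * x * (incCount m X b : ℤ) + x ^ 2 := by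
      intro b; ring
    simp only [this]
    rw [Finset.sum_add_distrib, Finset.sum_sub_distrib, ← Finset.mul_sum, ← Finset.mul_sum,
      Finset.sum_const, nsmul_eq_mul, hcardU]
  have upper : ∑ b, ((p * (incCount m X b : ℤ) - x) ^ 2) ≤ p ^ 3 * x := by
    rw [expand, s1]
    have h0 : (0 : ℤ) ≤ p ^ 2 := sq_nonneg p
    nlinarith [mul_le_mul_of_nonneg_left s2 h0]
  have lower : (Y.card : ℤ) * x ^ 2 ≤ ∑ b, ((p * (incCount m X b : ℤ) - x) ^ 2) := by
    calc (Y.card : ℤ) * x ^ 2 = ∑ b ∈ Y, ((p * (incCount m X b : ℤ) - x) ^ 2) := by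
          rw [← nsmul_eq_mul, ← Finset.sum_const]
          refine Finset.sum_congr rfl (fun b hb => ?_)
          have : incCount m X b = 0 := by
            unfold incCount
            rw [Finset.card_eq_zero, Finset.filter_eq_empty_iff]
            intro a ha
            exact hno a ha b hb
          simp [this]
      _ ≤ ∑ b, ((p * (incCount m X b : ℤ) - x) ^ 2) :=
          Finset.sum_le_sum_of_subset_of_nonneg (Finset.subset_univ _)
            (fun _ _ _ => sq_nonneg _)
  have hxpos : (0 : ℤ) < x := by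
    rw [hx]
    exact_mod_cast hXpos
  have : (Y.card : ℤ) * x * x ≤ p ^ 3 * x := by nlinarith [lower.trans upper]
  have h2 : (Y.card : ℤ) * x ≤ p ^ 3 := le_of_mul_le_mul_right this hxpos
  have h3 : Y.card * X.card ≤ P ^ 3 := by
    have : ((Y.card * X.card : ℕ) : ℤ) ≤ ((P ^ 3 : ℕ) : ℤ) := by
      push_cast
      exact h2
    exact_mod_cast this
  rwa [mul_comm] at h3

/-- Every nonzero residue is a sum of two products. -/
theorem exists_two_products (A B : Finset (ZMod P)) (hA : ∀ a ∈ A, a ≠ 0)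
    (h : P ^ 3 < (A.card * B.card) ^ 2) (m : ZMod P) (hm : m ≠ 0) :
    ∃ a₁ ∈ A, ∃ a₂ ∈ A, ∃ b₁ ∈ B, ∃ b₂ ∈ B, a₁ * b₁ + a₂ * b₂ = m := by
  by_contra hcon
  push Not at hcon
  have hno : ∀ a ∈ A ×ˢ A, ∀ b ∈ B ×ˢ B, a.1 * b.1 + a.2 * b.2 ≠ m := by
    rintro ⟨a₁, a₂⟩ ha ⟨b₁, b₂⟩ hb
    simp only [Finset.mem_product] at ha hb
    exact hcon a₁ ha.1 a₂ ha.2 b₁ hb.1 b₂ hb.2
  have := card_mul_card_le_of_no_incidence m hm (A ×ˢ A) (B ×ˢ B)
    (fun a ha => hA a.1 (Finset.mem_product.1 ha).1) hno
  simp only [Finset.card_product] at this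
  have e : A.card * A.card * (B.card * B.card) = (A.card * B.card) ^ 2 := by ring
  omega

end Vale.Agent.Lib.P012
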