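import Mathlib
import Vale.Agent.Lib.P012.Incidence

/-!
Part C: given two sets of integers of size `4^h`, most primes in `(2^h, 4^h]` separate them well,
so that every nonzero residue is a sum of two products.
-/

namespace Vale.Agent.Lib.P012

open Finset

/-- Number of off-diagonal pairs in `D` congruent modulo `P`. -/
def coll (D : Finset ℕ) (P : ℕ) : ℕ :=
  ((D ×ˢ D).filter (fun p => p.1 ≠ p.2 ∧ p.1 ≡ p.2 [MOD P])).card

lemma card_sq_le_image_mul {α : Type*} [DecidableEq α] (D : Finset ℕ) (f : ℕ → α) :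
    D.card ^ 2 ≤ (D.image f).card * ((D ×ˢ D).filter (fun p => f p.1 = f p.2)).card := by
  classical
  set A := D.image f with hA
  have h1 : D.card = ∑ c ∈ A, (D.filter (fun d => f d = c)).card :=
    Finset.card_eq_sum_card_image f D
  have h2 : ((D ×ˢ D).filter (fun p => f p.1 = f p.2)).card
      = ∑ c ∈ A, (D.filter (fun d => f d = c)).card ^ 2 := by
    have hmaps : ∀ p ∈ (D ×ˢ D).filter (fun p => f p.1 = f p.2), f p.1 ∈ A := by
      intro p hp
      have hp1 := (Finset.mem_product.1 (Finset.mem_filter.1 hp).1).1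
      exact Finset.mem_image_of_mem f hp1
    rw [Finset.card_eq_sum_card_fiberwise hmaps]
    refine Finset.sum_congr rfl (fun c _ => ?_)
    have : ((D ×ˢ D).filter (fun p => f p.1 = f p.2)).filter (fun p => f p.1 = c)
        = (D.filter (fun d => f d = c)) ×ˢ (D.filter (fun d => f d = c)) := by
      ext ⟨x, y⟩
      simp only [mem_filter, mem_product]
      constructor
      · rintro ⟨⟨⟨hx, hy⟩, hxy⟩, hc⟩
        exact ⟨⟨hx, hc⟩, hy, hxy ▸ hc⟩
      · rintro ⟨⟨hx, hc⟩, hy, hc'⟩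
        exact ⟨⟨⟨hx, hy⟩, hc.trans hc'.symm⟩, hc⟩
    rw [this, Finset.card_product, sq]
  rw [h2]
  calc D.card ^ 2 = (∑ c ∈ A, (D.filter (fun d => f d = c)).card) ^ 2 := by rw [← h1]
    _ ≤ A.card * ∑ c ∈ A, (D.filter (fun d => f d = c)).card ^ 2 :=
        sq_sum_le_card_mul_sum_sq

lemma card_sq_le_image_cast (D : Finset ℕ) (P : ℕ) :
    D.card ^ 2 ≤ (D.image (fun d : ℕ => (d : ZMod P))).card * (D.card + coll D P) := by
  classical
  refine (card_sq_le_image_mul D (fun d : ℕ => (d : ZMod P))).trans ?_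
  refine Nat.mul_le_mul_left _ ?_
  have hsub : (D ×ˢ D).filter (fun p => (p.1 : ZMod P) = (p.2 : ZMod P))
      ⊆ (D.image (fun d => (d, d))) ∪
        (D ×ˢ D).filter (fun p => p.1 ≠ p.2 ∧ p.1 ≡ p.2 [MOD P]) := by
    rintro ⟨x, y⟩ hp
    simp only [mem_filter, mem_product] at hp
    by_cases hxy : x = y
    · subst hxy
      exact Finset.mem_union_left _ (Finset.mem_image.2 ⟨x, hp.1.1, rfl⟩)
    · refine Finset.mem_union_right _ ?_
      simp only [mem_filter, mem_product]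
      exact ⟨hp.1, hxy, (ZMod.natCast_eq_natCast_iff _ _ _).1 hp.2⟩
  calc _ ≤ _ := Finset.card_le_card hsub
    _ ≤ (D.image (fun d => (d, d))).card + coll D P := Finset.card_union_le _ _
    _ ≤ D.card + coll D P := Nat.add_le_add_right Finset.card_image_le _

/-- A nonzero integer has few prime factors above `Z`. -/
lemma card_primes_modEq_le (Ps : Finset ℕ) (Z w : ℕ) (hprime : ∀ P ∈ Ps, P.Prime)
    (hZ : ∀ P ∈ Ps, Z < P) {d d' : ℕ} (hne : d ≠ d') (hd : d < Z ^ (w + 1))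
    (hd' : d' < Z ^ (w + 1)) :
    (Ps.filter (fun P => d ≡ d' [MOD P])).card ≤ w := by
  classical
  set S := Ps.filter (fun P => d ≡ d' [MOD P]) with hS
  set δ : ℕ := ((d : ℤ) - d').natAbs with hδ
  have hδpos : 0 < δ := by
    rw [hδ, Int.natAbs_pos]
    intro h
    apply hne
    have : (d : ℤ) = d' := by linarith
    exact_mod_cast this
  have hδlt : δ < Z ^ (w + 1) := by
    have h1 : ((d : ℤ) - d').natAbs ≤ max d d' := by
      rcases le_total d d' with h | h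
      · have : ((d : ℤ) - d').natAbs = d' - d := by omega
        rw [this, max_eq_right h]; omega
      · have : ((d : ℤ) - d').natAbs = d - d' := by omega
        rw [this, max_eq_left h]; omega
    exact lt_of_le_of_lt h1 (max_lt hd hd')
  have hdvd : ∏ P ∈ S, P ∣ δ := by
    apply Finset.prod_primes_dvd
    · intro P hP
      exact (hprime P (Finset.mem_filter.1 hP).1).prime
    · intro P hP
      have hmod := (Finset.mem_filter.1 hP).2
      have : (P : ℤ) ∣ (d : ℤ) - d' := by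
        have := (Nat.modEq_iff_dvd.1 hmod.symm)
        simpa using this
      exact Int.natCast_dvd.1 this
  have hle : ∏ P ∈ S, P ≤ δ := Nat.le_of_dvd hδpos hdvd
  have hpow : Z ^ S.card ≤ ∏ P ∈ S, P := by
    apply Finset.pow_card_le_prod
    intro P hP
    exact (hZ P (Finset.mem_filter.1 hP).1).le
  have hlt : Z ^ S.card < Z ^ (w + 1) := lt_of_le_of_lt (hpow.trans hle) hδlt
  by_cases hZ1 : 1 < Z
  · have := (Nat.pow_lt_pow_iff_right hZ1).1 hlt
    omega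
  · exfalso
    have hZ' : Z ^ (w + 1) ≤ 1 := by
      interval_cases Z
      · simp
      · simp
    omega

lemma sum_coll_le (Ps D : Finset ℕ) (w : ℕ)
    (h : ∀ d ∈ D, ∀ d' ∈ D, d ≠ d' → (Ps.filter (fun P => d ≡ d' [MOD P])).card ≤ w) :
    ∑ P ∈ Ps, coll D P ≤ D.card ^ 2 * w := by
  classical
  have h1 : ∀ P ∈ Ps, coll D P
      = ∑ p ∈ D ×ˢ D, (if p.1 ≠ p.2 ∧ p.1 ≡ p.2 [MOD P] then 1 else 0) := by
    intro P _
    unfold coll
    rw [Finset.card_filter]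
  rw [Finset.sum_congr rfl h1, Finset.sum_comm]
  calc ∑ p ∈ D ×ˢ D, ∑ P ∈ Ps, (if p.1 ≠ p.2 ∧ p.1 ≡ p.2 [MOD P] then 1 else 0)
      ≤ ∑ p ∈ D ×ˢ D, w := by
        refine Finset.sum_le_sum (fun p hp => ?_)
        obtain ⟨hp1, hp2⟩ := Finset.mem_product.1 hp
        by_cases hne : p.1 = p.2
        · simp [hne]
        · have : ∑ P ∈ Ps, (if p.1 ≠ p.2 ∧ p.1 ≡ p.2 [MOD P] then 1 else 0)
              = (Ps.filter (fun P => p.1 ≡ p.2 [MOD P])).card := by
            rw [Finset.card_filter]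
            refine Finset.sum_congr rfl (fun P _ => ?_)
            simp [hne]
          rw [this]
          exact h _ hp1 _ hp2 hne
    _ = D.card ^ 2 * w := by
        simp [Finset.card_product, sq]

lemma two_pow_ge (h : ℕ) (hh : 32 ≤ h) : 4 * h + 2 ≤ 2 ^ h := by
  induction h, hh using Nat.le_induction with
  | base => norm_num
  | succ n hn ih =>
    rw [pow_succ]
    omega

/-- Chebyshev's lower bound for primes in `(2^h, 4^h]`. -/
lemma prime_count (h : ℕ) (hh : 32 ≤ h) :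
    2 ^ (2 * h) ≤ 4 * h * ((Finset.Ioc (2 ^ h) (2 ^ (2 * h))).filter Nat.Prime).card := by
  classical
  set n : ℕ := 2 ^ (2 * h) with hn
  set Ps := (Finset.Ioc (2 ^ h) n).filter Nat.Prime with hPs
  have hlog2 : 0 < Real.log 2 := Real.log_pos (by norm_num)
  have hnpos : (0 : ℝ) < n := by positivity
  have hlogn : Real.log n = (2 * h : ℕ) * Real.log 2 := by
    rw [hn]; push_cast; rw [Real.log_pow]; push_cast; ring
  have hhpos : (0 : ℝ) < h := by
    have : 0 < h := by omega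
    exact_mod_cast this
  have hlognpos : 0 < Real.log n := by
    rw [hlogn]; push_cast; positivity
  have hlogn1 : Real.log ((n : ℝ) + 1) ≤ (2 * h + 1 : ℕ) * Real.log 2 := by
    have h1 : (n : ℝ) + 1 ≤ 2 ^ (2 * h + 1) := by
      have h1' : (1 : ℝ) ≤ n := by
        have : 1 ≤ n := Nat.one_le_two_pow
        exact_mod_cast this
      rw [pow_succ]
      have : (n : ℝ) = 2 ^ (2 * h) := by rw [hn]; push_cast; ring
      linarith
    calc Real.log ((n : ℝ) + 1) ≤ Real.log (2 ^ (2 * h + 1)) :=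
          Real.log_le_log (by positivity) h1
      _ = (2 * h + 1 : ℕ) * Real.log 2 := by rw [Real.log_pow]
  have hpi := Chebyshev.pi_ge n
  rw [div_le_iff₀ hlognpos] at hpi
  have hreal : (n : ℝ) ≤ (2 * h : ℕ) * (n.primeCounting : ℝ) + (2 * h + 1 : ℕ) := by
    have h2 : (n : ℝ) * Real.log 2 ≤ (n.primeCounting : ℝ) * ((2 * h : ℕ) * Real.log 2)
        + (2 * h + 1 : ℕ) * Real.log 2 := by
      rw [← hlogn]
      linarith
    have h3 : ((n : ℝ) - ((2 * h : ℕ) * (n.primeCounting : ℝ) + (2 * h + 1 : ℕ))) * Real.log 2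
        ≤ 0 := by nlinarith
    have := nonpos_of_mul_nonpos_left h3 hlog2
    linarith
  have hnat : n ≤ 2 * h * n.primeCounting + (2 * h + 1) := by exact_mod_cast hreal
  have hpi2 : n.primeCounting ≤ 2 ^ h + Ps.card := by
    have : n.primeCounting = ((Finset.range (n + 1)).filter Nat.Prime).card := by
      rw [Nat.primeCounting, Nat.primeCounting', Nat.count_eq_card_filter_range]
    rw [this]
    have hsub : (Finset.range (n + 1)).filter Nat.Prime ⊆ Finset.Ioc 0 (2 ^ h) ∪ Ps := by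
      intro x hx
      obtain ⟨hx1, hx2⟩ := Finset.mem_filter.1 hx
      have hxn : x ≤ n := Nat.lt_succ_iff.1 (Finset.mem_range.1 hx1)
      by_cases hxh : x ≤ 2 ^ h
      · exact Finset.mem_union_left _ (Finset.mem_Ioc.2 ⟨hx2.pos, hxh⟩)
      · refine Finset.mem_union_right _ (Finset.mem_filter.2 ⟨Finset.mem_Ioc.2 ⟨by omega, hxn⟩, hx2⟩)
    calc _ ≤ _ := Finset.card_le_card hsub
      _ ≤ (Finset.Ioc 0 (2 ^ h)).card + Ps.card := Finset.card_union_le _ _
      _ = 2 ^ h + Ps.card := by simp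
  have hpow := two_pow_ge h hh
  have hnsq : n = 2 ^ h * 2 ^ h := by rw [hn, two_mul, pow_add]
  set u : ℕ := 2 ^ h with hu
  have hu' : 4 * h + 2 ≤ u := hpow
  have h5 : n ≤ 2 * h * (u + Ps.card) + (2 * h + 1) :=
    hnat.trans (Nat.add_le_add_right (Nat.mul_le_mul_left _ hpi2) _)
  have h6 : 2 * (2 * h * u + (2 * h + 1)) ≤ n := by
    rw [hnsq]
    nlinarith
  have h7 : n ≤ 2 * (2 * h * Ps.card) := by
    have : 2 * h * (u + Ps.card) = 2 * h * u + 2 * h * Ps.card := by ring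
    omega
  calc n ≤ 2 * (2 * h * Ps.card) := h7
    _ = 4 * h * Ps.card := by ring

lemma poly_lt_two_pow (h : ℕ) (hh : 32 ≤ h) : (1 + 16 * h ^ 2) ^ 4 < 2 ^ (2 * h) := by
  induction h, hh using Nat.le_induction with
  | base => norm_num
  | succ n hn ih =>
    have h1 : 2 ^ (2 * (n + 1)) = 4 * 2 ^ (2 * n) := by
      rw [Nat.mul_succ, pow_add]; ring
    rw [h1]
    have h2 : 5 * (1 + 16 * (n + 1) ^ 2) ≤ 7 * (1 + 16 * n ^ 2) := by nlinarith
    have h3 : (5 * (1 + 16 * (n + 1) ^ 2)) ^ 2 ≤ (7 * (1 + 16 * n ^ 2)) ^ 2 :=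
      Nat.pow_le_pow_left h2 2
    have h4 : (1 + 16 * (n + 1) ^ 2) ^ 2 ≤ 2 * (1 + 16 * n ^ 2) ^ 2 := by nlinarith
    have h5 : ((1 + 16 * (n + 1) ^ 2) ^ 2) ^ 2 ≤ (2 * (1 + 16 * n ^ 2) ^ 2) ^ 2 :=
      Nat.pow_le_pow_left h4 2
    have h6 : (1 + 16 * (n + 1) ^ 2) ^ 4 = ((1 + 16 * (n + 1) ^ 2) ^ 2) ^ 2 := by ring
    have h7 : (2 * (1 + 16 * n ^ 2) ^ 2) ^ 2 = 4 * (1 + 16 * n ^ 2) ^ 4 := by ring
    rw [h6]
    omega

/-- Existence of a prime modulo which every nonzero residue is a sum of two products. -/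
theorem exists_good_prime (h w : ℕ) (hh : 32 ≤ h) (hw : w ≤ 2 * h) (D₁ D₂ : Finset ℕ)
    (c₁ : D₁.card = 2 ^ (2 * h)) (c₂ : D₂.card = 2 ^ (2 * h))
    (b₁ : ∀ d ∈ D₁, d < (2 ^ h) ^ (w + 1)) (b₂ : ∀ d ∈ D₂, d < (2 ^ h) ^ (w + 1))
    (nd₁ : ∀ P : ℕ, P.Prime → 2 ^ h < P → ∀ d ∈ D₁, ¬ P ∣ d) :
    ∃ P : ℕ, P.Prime ∧ 2 ^ h < P ∧ P ≤ 2 ^ (2 * h) ∧
      ∀ m : ℕ, ¬ P ∣ m → ∃ a₁ ∈ D₁, ∃ a₂ ∈ D₁, ∃ b₁ ∈ D₂, ∃ b₂ ∈ D₂,
        a₁ * b₁ + a₂ * b₂ ≡ m [MOD P] := by
  classical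
  set c : ℕ := 2 ^ (2 * h) with hc
  set Ps := (Finset.Ioc (2 ^ h) c).filter Nat.Prime with hPs
  have hcpos : 0 < c := by positivity
  have hcount : c ≤ 4 * h * Ps.card := prime_count h hh
  have hprime : ∀ P ∈ Ps, P.Prime := fun P hP => (Finset.mem_filter.1 hP).2
  have hZ : ∀ P ∈ Ps, 2 ^ h < P := fun P hP =>
    (Finset.mem_Ioc.1 (Finset.mem_filter.1 hP).1).1
  have hle : ∀ P ∈ Ps, P ≤ c := fun P hP =>
    (Finset.mem_Ioc.1 (Finset.mem_filter.1 hP).1).2
  have hnpos : 0 < Ps.card := by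
    by_contra hn
    have : Ps.card = 0 := by omega
    rw [this] at hcount
    simp at hcount
    omega
  have hne : Ps.Nonempty := Finset.card_pos.1 hnpos
  have s1 : ∑ P ∈ Ps, coll D₁ P ≤ c ^ 2 * w := by
    rw [← c₁]
    exact sum_coll_le Ps D₁ w (fun d hd d' hd' hdd =>
      card_primes_modEq_le Ps (2 ^ h) w hprime hZ hdd (b₁ d hd) (b₁ d' hd'))
  have s2 : ∑ P ∈ Ps, coll D₂ P ≤ c ^ 2 * w := by
    rw [← c₂]
    exact sum_coll_le Ps D₂ w (fun d hd d' hd' hdd =>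
      card_primes_modEq_le Ps (2 ^ h) w hprime hZ hdd (b₂ d hd) (b₂ d' hd'))
  -- pick the best prime
  have hex : ∃ P ∈ Ps, Ps.card * (coll D₁ P + coll D₂ P) ≤ 2 * c ^ 2 * w := by
    apply Finset.exists_le_of_sum_le hne
    rw [← Finset.mul_sum, Finset.sum_add_distrib]
    simp only [Finset.sum_const, smul_eq_mul]
    have : ∑ P ∈ Ps, coll D₁ P + ∑ P ∈ Ps, coll D₂ P ≤ 2 * c ^ 2 * w := by
      have : 2 * c ^ 2 * w = c ^ 2 * w + c ^ 2 * w := by ring
      omega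
    exact Nat.mul_le_mul_left _ this
  obtain ⟨P, hP, hPbound⟩ := hex
  have hPprime := hprime P hP
  have : Fact P.Prime := ⟨hPprime⟩
  refine ⟨P, hPprime, hZ P hP, hle P hP, ?_⟩
  -- bound the collisions
  have hT : coll D₁ P + coll D₂ P ≤ 8 * h * c * w := by
    have h1 : c * (coll D₁ P + coll D₂ P) ≤ c * (8 * h * c * w) := by
      calc c * (coll D₁ P + coll D₂ P)
          ≤ (4 * h * Ps.card) * (coll D₁ P + coll D₂ P) := Nat.mul_le_mul_right _ hcount
        _ = 4 * h * (Ps.card * (coll D₁ P + coll D₂ P)) := by ring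
        _ ≤ 4 * h * (2 * c ^ 2 * w) := Nat.mul_le_mul_left _ hPbound
        _ = c * (8 * h * c * w) := by ring
    exact Nat.le_of_mul_le_mul_left h1 hcpos
  set ρ : ℕ := 1 + 8 * h * w with hρ
  have hρpow : ρ ^ 4 < c := by
    have h1 : ρ ≤ 1 + 16 * h ^ 2 := by
      rw [hρ]
      have : 8 * h * w ≤ 8 * h * (2 * h) := Nat.mul_le_mul_left _ hw
      nlinarith
    exact lt_of_le_of_lt (Nat.pow_le_pow_left h1 4) (poly_lt_two_pow h hh)
  have himg : ∀ D : Finset ℕ, D.card = c → coll D P ≤ 8 * h * c * w →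
      c ≤ (D.image (fun d : ℕ => (d : ZMod P))).card * ρ := by
    intro D hD hcoll
    have h1 := card_sq_le_image_cast D P
    rw [hD] at h1
    have h2 : c + coll D P ≤ c * ρ := by
      rw [hρ]
      nlinarith
    have h3 : c * c ≤ c * ((D.image (fun d : ℕ => (d : ZMod P))).card * ρ) := by
      calc c * c = c ^ 2 := by ring
        _ ≤ (D.image (fun d : ℕ => (d : ZMod P))).card * (c + coll D P) := h1
        _ ≤ (D.image (fun d : ℕ => (d : ZMod P))).card * (c * ρ) := Nat.mul_le_mul_left _ h2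
        _ = c * ((D.image (fun d : ℕ => (d : ZMod P))).card * ρ) := by ring
    exact Nat.le_of_mul_le_mul_left h3 hcpos
  set A₁ := D₁.image (fun d : ℕ => (d : ZMod P)) with hA₁
  set A₂ := D₂.image (fun d : ℕ => (d : ZMod P)) with hA₂
  have i₁ : c ≤ A₁.card * ρ := himg D₁ c₁ (by omega)
  have i₂ : c ≤ A₂.card * ρ := himg D₂ c₂ (by omega)
  have hPle : P ≤ c := hle P hP
  have hlarge : P ^ 3 < (A₁.card * A₂.card) ^ 2 := by
    by_contra hcon
    push Not at hcon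
    have h1 : c ^ 4 ≤ (A₁.card * A₂.card) ^ 2 * ρ ^ 4 := by
      have : c * c ≤ (A₁.card * ρ) * (A₂.card * ρ) := Nat.mul_le_mul i₁ i₂
      have h2 : (c * c) ^ 2 ≤ ((A₁.card * ρ) * (A₂.card * ρ)) ^ 2 := Nat.pow_le_pow_left this 2
      calc c ^ 4 = (c * c) ^ 2 := by ring
        _ ≤ ((A₁.card * ρ) * (A₂.card * ρ)) ^ 2 := h2
        _ = (A₁.card * A₂.card) ^ 2 * ρ ^ 4 := by ring
    have h3 : (A₁.card * A₂.card) ^ 2 ≤ c ^ 3 :=
      hcon.trans (Nat.pow_le_pow_left hPle 3)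
    have h4 : c ^ 3 * c ≤ c ^ 3 * ρ ^ 4 := by
      calc c ^ 3 * c = c ^ 4 := by ring
        _ ≤ (A₁.card * A₂.card) ^ 2 * ρ ^ 4 := h1
        _ ≤ c ^ 3 * ρ ^ 4 := Nat.mul_le_mul_right _ h3
    have h5 : c ≤ ρ ^ 4 := Nat.le_of_mul_le_mul_left h4 (by positivity)
    omega
  have hA₁ne : ∀ a ∈ A₁, a ≠ 0 := by
    intro a ha
    obtain ⟨d, hd, rfl⟩ := Finset.mem_image.1 ha
    intro h0
    exact nd₁ P hPprime (hZ P hP) d hd ((ZMod.natCast_eq_zero_iff d P).1 h0)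
  intro m hm
  have hm0 : (m : ZMod P) ≠ 0 := fun h0 => hm ((ZMod.natCast_eq_zero_iff m P).1 h0)
  obtain ⟨a₁, ha₁, a₂, ha₂, b₁', hb₁, b₂', hb₂, heq⟩ :=
    exists_two_products A₁ A₂ hA₁ne hlarge (m : ZMod P) hm0
  obtain ⟨x₁, hx₁, rfl⟩ := Finset.mem_image.1 ha₁
  obtain ⟨x₂, hx₂, rfl⟩ := Finset.mem_image.1 ha₂
  obtain ⟨y₁, hy₁, rfl⟩ := Finset.mem_image.1 hb₁
  obtain ⟨y₂, hy₂, rfl⟩ := Finset.mem_image.1 hb₂
  refine ⟨x₁, hx₁, x₂, hx₂, y₁, hy₁, y₂, hy₂, ?_⟩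
  apply (ZMod.natCast_eq_natCast_iff _ _ _).1
  push_cast
  exact heq

end Vale.Agent.Lib.P012
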