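import Mathlib

/-!
Part A: representing integers as sums of few distinct divisors.
`Rep N X k` says that every natural number at most `X` is a sum of at most `k` distinct
divisors of `N`.  A reduction step modulo `P` multiplies `X` and `N` by `P` at the price of
at most `K` extra divisors.
-/

namespace Vale.Agent.Lib.P012

open Finset

/-- Every natural number at most `X` is a sum of at most `k` distinct divisors of `N`. -/
def Rep (N X k : ℕ) : Prop :=
  ∀ m ≤ X, ∃ S : Finset ℕ, S ⊆ N.divisors ∧ S.card ≤ k ∧ ∑ d ∈ S, d = m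

/-- Every residue class modulo `P` contains the sum of a set of at most `K` divisors of `N`,
none divisible by `P`, with total sum at most `B`. -/
def Cover (N P K B : ℕ) : Prop :=
  ∀ m : ℕ, ∃ T : Finset ℕ, T ⊆ N.divisors ∧ T.card ≤ K ∧ (∀ t ∈ T, ¬ P ∣ t) ∧
    ∑ t ∈ T, t ≤ B ∧ ∑ t ∈ T, t ≡ m [MOD P]

lemma divisors_subset_of_dvd' {N N' : ℕ} (h : N ∣ N') (hN' : N' ≠ 0) :
    N.divisors ⊆ N'.divisors :=
  Nat.divisors_subset_of_dvd hN' h

lemma Rep.mono_left {N N' X k : ℕ} (h : Rep N X k) (hd : N ∣ N') (hN' : N' ≠ 0) :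
    Rep N' X k := by
  intro m hm
  obtain ⟨S, hS, hc, hs⟩ := h m hm
  exact ⟨S, hS.trans (divisors_subset_of_dvd' hd hN'), hc, hs⟩

lemma Rep.mono_k {N X k k' : ℕ} (h : Rep N X k) (hk : k ≤ k') : Rep N X k' := by
  intro m hm
  obtain ⟨S, hS, hc, hs⟩ := h m hm
  exact ⟨S, hS, hc.trans hk, hs⟩

lemma Cover.mono_left {N N' P K B : ℕ} (h : Cover N P K B) (hd : N ∣ N') (hN' : N' ≠ 0) :
    Cover N' P K B := by
  intro m
  obtain ⟨T, hT, hc, hP, hs, hmod⟩ := h m
  exact ⟨T, hT.trans (divisors_subset_of_dvd' hd hN'), hc, hP, hs, hmod⟩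

/-- One reduction step modulo `P`. -/
lemma Rep.step {N X k P K B : ℕ} (hP : 0 < P) (hN : N ≠ 0) (h : Rep N X k)
    (hc : Cover N P K B) (hB : B ≤ X) : Rep (N * P) (X * P) (k + K) := by
  have hNP : N * P ≠ 0 := mul_ne_zero hN hP.ne'
  intro m hm
  by_cases hmX : m ≤ X
  · obtain ⟨S, hS, hcard, hs⟩ := h m hmX
    exact ⟨S, hS.trans (divisors_subset_of_dvd' (dvd_mul_right N P) hNP),
      hcard.trans (Nat.le_add_right k K), hs⟩
  · push Not at hmX
    obtain ⟨T, hT, hcard, hPT, hsum, hmod⟩ := hc m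
    have hle : ∑ t ∈ T, t ≤ m := by omega
    have hdvd : P ∣ m - ∑ t ∈ T, t := (Nat.modEq_iff_dvd' hle).1 hmod
    obtain ⟨m', hm'⟩ := hdvd
    have hm'X : m' ≤ X := by
      have h1 : P * m' ≤ X * P := by
        rw [← hm']
        exact (Nat.sub_le _ _).trans hm
      rw [mul_comm X P] at h1
      exact Nat.le_of_mul_le_mul_left h1 hP
    obtain ⟨S, hS, hcardS, hsS⟩ := h m' hm'X
    have hinj : Set.InjOn (fun d : ℕ => P * d) (S : Set ℕ) := fun a _ b _ hab =>
      Nat.eq_of_mul_eq_mul_left hP hab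
    have hdisj : Disjoint T (S.image (fun d => P * d)) := by
      rw [Finset.disjoint_left]
      intro t ht ht'
      obtain ⟨d, _, rfl⟩ := Finset.mem_image.1 ht'
      exact hPT _ ht (dvd_mul_right P d)
    refine ⟨T ∪ S.image (fun d => P * d), ?_, ?_, ?_⟩
    · intro x hx
      rcases Finset.mem_union.1 hx with hx | hx
      · exact divisors_subset_of_dvd' (dvd_mul_right N P) hNP (hT hx)
      · obtain ⟨d, hd, rfl⟩ := Finset.mem_image.1 hx
        have hdN := Nat.dvd_of_mem_divisors (hS hd)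
        refine Nat.mem_divisors.2 ⟨?_, hNP⟩
        rw [mul_comm N P]
        exact Nat.mul_dvd_mul_left P hdN
    · calc (T ∪ S.image (fun d => P * d)).card
          ≤ T.card + (S.image (fun d => P * d)).card := Finset.card_union_le _ _
        _ ≤ K + k := Nat.add_le_add hcard (Finset.card_image_le.trans hcardS)
        _ = k + K := Nat.add_comm _ _
    · rw [Finset.sum_union hdisj, Finset.sum_image hinj, ← Finset.mul_sum, hsS, ← hm']
      omega

/-- Iterating the reduction step `l` times. -/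
lemma Rep.iter {N X k P K B : ℕ} (hP : 0 < P) (hN : N ≠ 0) (h : Rep N X k)
    (hc : Cover N P K B) (hB : B ≤ X) (l : ℕ) :
    Rep (N * P ^ l) (X * P ^ l) (k + l * K) := by
  induction l with
  | zero => simpa using h
  | succ l ih =>
    have hN' : N * P ^ l ≠ 0 := mul_ne_zero hN (pow_ne_zero _ hP.ne')
    have hc' : Cover (N * P ^ l) P K B := hc.mono_left (dvd_mul_right N _) hN'
    have hB' : B ≤ X * P ^ l :=
      hB.trans (Nat.le_mul_of_pos_right X (pow_pos hP l))
    have := ih.step hP hN' hc' hB'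
    rw [pow_succ, ← mul_assoc, ← mul_assoc]
    convert this using 1
    ring

/-- Binary expansions. -/
lemma rep_pow_two (J : ℕ) : Rep (2 ^ J) (2 ^ J) (J + 1) := by
  have h0 : Rep 1 1 1 := by
    intro m hm
    rcases Nat.le_one_iff_eq_zero_or_eq_one.1 hm with rfl | rfl
    · exact ⟨∅, by simp, by simp, by simp⟩
    · exact ⟨{1}, by simp, by simp, by simp⟩
  have hc : Cover 1 2 1 1 := by
    intro m
    rcases Nat.even_or_odd m with he | ho
    · refine ⟨∅, by simp, by simp, by simp, by simp, ?_⟩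
      simpa [Nat.ModEq] using (Nat.even_iff.1 he).symm
    · refine ⟨{1}, by simp, by simp, by simp, by simp, ?_⟩
      simpa [Nat.ModEq] using (Nat.odd_iff.1 ho).symm
  have := h0.iter (by norm_num) (by norm_num) hc le_rfl J
  simpa [add_comm] using this

end Vale.Agent.Lib.P012
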