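import Mathlib
import Vale.Agent.Lib.P012.Rep
import Vale.Agent.Lib.P012.GoodPrime

/-!
Part D: sets of products of primes, taken one from each of `t` blocks of length `w`, and the
covering statement at a fixed scale.
-/

namespace Vale.Agent.Lib.P012

open Finset

/-- Products of `t` primes, one from each of the first `t` blocks of length `w` of `q`. -/
def block (q : ℕ → ℕ) (w : ℕ) : ℕ → Finset ℕ
  | 0 => {1}
  | t + 1 => ((block q w t) ×ˢ (Finset.range w)).image (fun p => p.1 * q (t * w + p.2))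

lemma mem_block_succ {q : ℕ → ℕ} {w t d : ℕ} :
    d ∈ block q w (t + 1) ↔ ∃ d' ∈ block q w t, ∃ k < w, d = d' * q (t * w + k) := by
  simp only [block, mem_image, mem_product, mem_range, Prod.exists]
  constructor
  · rintro ⟨d', k, ⟨h1, h2⟩, rfl⟩
    exact ⟨d', h1, k, h2, rfl⟩
  · rintro ⟨d', h1, k, h2, rfl⟩
    exact ⟨d', k, ⟨h1, h2⟩, rfl⟩

lemma block_primeFactor {q : ℕ → ℕ} (hq : ∀ i, (q i).Prime) {w : ℕ} :
    ∀ t, ∀ d ∈ block q w t, ∀ p : ℕ, p.Prime → p ∣ d → ∃ i < t * w, p = q i := by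
  intro t
  induction t with
  | zero =>
    intro d hd p hp hpd
    simp only [block, mem_singleton] at hd
    subst hd
    exact absurd (Nat.dvd_one.1 hpd) hp.ne_one
  | succ t ih =>
    intro d hd p hp hpd
    obtain ⟨d', hd', k, hk, rfl⟩ := mem_block_succ.1 hd
    rcases (Nat.Prime.dvd_mul hp).1 hpd with h | h
    · obtain ⟨i, hi, rfl⟩ := ih d' hd' p hp h
      refine ⟨i, ?_, rfl⟩
      calc i < t * w := hi
        _ ≤ (t + 1) * w := Nat.mul_le_mul_right _ (Nat.le_succ t)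
    · refine ⟨t * w + k, ?_, (Nat.prime_dvd_prime_iff_eq hp (hq _)).1 h⟩
      rw [Nat.succ_mul]
      omega

lemma block_dvd {q : ℕ → ℕ} {w : ℕ} :
    ∀ t, ∀ d ∈ block q w t, d ∣ ∏ i ∈ Finset.range (t * w), q i := by
  intro t
  induction t with
  | zero =>
    intro d hd
    simp only [block, mem_singleton] at hd
    subst hd
    exact one_dvd _
  | succ t ih =>
    intro d hd
    obtain ⟨d', hd', k, hk, rfl⟩ := mem_block_succ.1 hd
    rw [Nat.succ_mul, Finset.prod_range_add]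
    refine Nat.mul_dvd_mul (ih d' hd') ?_
    exact Finset.dvd_prod_of_mem (fun x => q (t * w + x)) (Finset.mem_range.2 hk)

lemma block_pos {q : ℕ → ℕ} (hq : ∀ i, (q i).Prime) {w : ℕ} :
    ∀ t, ∀ d ∈ block q w t, 0 < d := by
  intro t
  induction t with
  | zero =>
    intro d hd
    simp only [block, mem_singleton] at hd
    omega
  | succ t ih =>
    intro d hd
    obtain ⟨d', hd', k, hk, rfl⟩ := mem_block_succ.1 hd
    exact Nat.mul_pos (ih d' hd') (hq _).pos

lemma block_le {q : ℕ → ℕ} {w B : ℕ} :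
    ∀ t, (∀ i < t * w, q i < B) → ∀ d ∈ block q w t, d ≤ B ^ t := by
  intro t
  induction t with
  | zero =>
    intro _ d hd
    simp only [block, mem_singleton] at hd
    simp [hd]
  | succ t ih =>
    intro hB d hd
    obtain ⟨d', hd', k, hk, rfl⟩ := mem_block_succ.1 hd
    have h1 : d' ≤ B ^ t := ih (fun i hi => hB i (lt_of_lt_of_le hi
      (Nat.mul_le_mul_right _ (Nat.le_succ t)))) d' hd'
    have h2 : q (t * w + k) < B := hB _ (by rw [Nat.succ_mul]; omega)
    rw [pow_succ]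
    exact Nat.mul_le_mul h1 h2.le

lemma block_lt {q : ℕ → ℕ} {w B t : ℕ} (ht : 0 < t)
    (hB : ∀ i < t * w, q i < B) : ∀ d ∈ block q w t, d < B ^ t := by
  obtain ⟨t, rfl⟩ : ∃ t', t = t' + 1 := ⟨t - 1, by omega⟩
  intro d hd
  obtain ⟨d', hd', k, hk, rfl⟩ := mem_block_succ.1 hd
  have h1 : d' ≤ B ^ t := block_le t (fun i hi => hB i (lt_of_lt_of_le hi
      (Nat.mul_le_mul_right _ (Nat.le_succ t)))) d' hd'
  have h2 : q (t * w + k) < B := hB _ (by rw [Nat.succ_mul]; omega)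
  have hBpos : 0 < B := lt_of_le_of_lt (Nat.zero_le _) h2
  rw [pow_succ]
  calc d' * q (t * w + k) ≤ B ^ t * q (t * w + k) := Nat.mul_le_mul_right _ h1
    _ < B ^ t * B := Nat.mul_lt_mul_of_pos_left h2 (pow_pos hBpos t)

lemma block_card {q : ℕ → ℕ} (hq : ∀ i, (q i).Prime) (hinj : Function.Injective q) {w : ℕ} :
    ∀ t, (block q w t).card = w ^ t := by
  intro t
  induction t with
  | zero => simp [block]
  | succ t ih =>
    have hinjOn : Set.InjOn (fun p : ℕ × ℕ => p.1 * q (t * w + p.2))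
        ((block q w t) ×ˢ (Finset.range w) : Finset (ℕ × ℕ)) := by
      rintro ⟨d, k⟩ hp ⟨d', k'⟩ hp' heq
      have hp₁ := Finset.mem_product.1 (Finset.mem_coe.1 hp)
      have hp'₁ := Finset.mem_product.1 (Finset.mem_coe.1 hp')
      simp only at heq hp₁ hp'₁
      have hr := hq (t * w + k)
      have hdvd : q (t * w + k) ∣ d' * q (t * w + k') :=
        ⟨d, by rw [← heq]; ring⟩
      have hk : k = k' := by
        rcases (Nat.Prime.dvd_mul hr).1 hdvd with h | h
        · obtain ⟨i, hi, hiq⟩ := block_primeFactor hq t d' hp'₁.1 _ hr h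
          have := hinj hiq
          omega
        · have := hinj ((Nat.prime_dvd_prime_iff_eq hr (hq _)).1 h)
          omega
      subst hk
      have hd : d = d' := Nat.eq_of_mul_eq_mul_right hr.pos heq
      rw [hd]
    rw [block, Finset.card_image_of_injOn hinjOn, Finset.card_product, ih, Finset.card_range,
      pow_succ]

/-- The pool of primes: all primes except 2 and 3. -/
noncomputable def pool (i : ℕ) : ℕ := Nat.nth Nat.Prime (i + 2)

lemma pool_prime (i : ℕ) : (pool i).Prime := Nat.prime_nth_prime _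

lemma pool_injective : Function.Injective pool := by
  intro a b h
  have := (Nat.nth_injective Nat.infinite_setOfPred_prime) h
  omega

lemma pool_ne_two (i : ℕ) : pool i ≠ 2 := by
  intro h
  have h0 : Nat.nth Nat.Prime 0 = 2 := Nat.nth_prime_zero_eq_two
  have := (Nat.nth_injective Nat.infinite_setOfPred_prime) (h.trans h0.symm)
  omega

lemma pool_ne_three (i : ℕ) : pool i ≠ 3 := by
  intro h
  have h0 : Nat.nth Nat.Prime 1 = 3 := Nat.nth_prime_one_eq_three
  have := (Nat.nth_injective Nat.infinite_setOfPred_prime) (h.trans h0.symm)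
  omega

/-- Even-indexed and odd-indexed parts of the pool. -/
noncomputable def q₁ (i : ℕ) : ℕ := pool (2 * i)
noncomputable def q₂ (i : ℕ) : ℕ := pool (2 * i + 1)

lemma q₁_prime (i : ℕ) : (q₁ i).Prime := pool_prime _
lemma q₂_prime (i : ℕ) : (q₂ i).Prime := pool_prime _

lemma q₁_injective : Function.Injective q₁ := by
  intro a b h
  have := pool_injective h
  omega

lemma q₂_injective : Function.Injective q₂ := by
  intro a b h
  have := pool_injective h
  omega

/-- The two products of pool primes. -/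
noncomputable def Q₁ (s : ℕ) : ℕ := ∏ i ∈ Finset.range s, q₁ i
noncomputable def Q₂ (s : ℕ) : ℕ := ∏ i ∈ Finset.range s, q₂ i

lemma Q₁_pos (s : ℕ) : 0 < Q₁ s := Finset.prod_pos (fun i _ => (q₁_prime i).pos)
lemma Q₂_pos (s : ℕ) : 0 < Q₂ s := Finset.prod_pos (fun i _ => (q₂_prime i).pos)

/-- Covering of residues at scale `t`. -/
theorem level_cover (Y t w s h w' : ℕ) (hs : t * w = s) (ht : 0 < t)
    (hcard : w ^ t = 2 ^ (2 * h)) (hpool : ∀ i < 2 * s, pool i < 2 ^ Y)
    (hYh : Y ≤ h) (hh : 32 ≤ h) (hw' : w' ≤ 2 * h) (hbd : Y * t ≤ h * (w' + 1)) :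
    ∃ P : ℕ, P.Prime ∧ 2 ^ h < P ∧ P ≤ 2 ^ (2 * h) ∧
      Cover (2 * (Q₁ s * Q₂ s)) P 2 (2 * 2 ^ (2 * Y * t)) := by
  classical
  set D₁ := block q₁ w t with hD₁
  set D₂ := block q₂ w t with hD₂
  have hq₁B : ∀ i < t * w, q₁ i < 2 ^ Y := by
    intro i hi
    rw [hs] at hi
    exact hpool _ (by omega)
  have hq₂B : ∀ i < t * w, q₂ i < 2 ^ Y := by
    intro i hi
    rw [hs] at hi
    exact hpool _ (by omega)
  have hlt₁ : ∀ d ∈ D₁, d < (2 ^ Y) ^ t := block_lt ht hq₁B
  have hlt₂ : ∀ d ∈ D₂, d < (2 ^ Y) ^ t := block_lt ht hq₂B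
  have hpow : ((2 : ℕ) ^ Y) ^ t ≤ (2 ^ h) ^ (w' + 1) := by
    rw [← pow_mul, ← pow_mul]
    exact Nat.pow_le_pow_right (by norm_num) hbd
  have hnd₁ : ∀ P : ℕ, P.Prime → 2 ^ h < P → ∀ d ∈ D₁, ¬ P ∣ d := by
    intro P hP hlt d hd hdvd
    obtain ⟨i, hi, rfl⟩ := block_primeFactor q₁_prime t d hd P hP hdvd
    have h1 := hq₁B i hi
    have h2 : (2 : ℕ) ^ Y ≤ 2 ^ h := Nat.pow_le_pow_right (by norm_num) hYh
    omega
  have hnd₂ : ∀ P : ℕ, P.Prime → 2 ^ h < P → ∀ d ∈ D₂, ¬ P ∣ d := by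
    intro P hP hlt d hd hdvd
    obtain ⟨i, hi, rfl⟩ := block_primeFactor q₂_prime t d hd P hP hdvd
    have h1 := hq₂B i hi
    have h2 : (2 : ℕ) ^ Y ≤ 2 ^ h := Nat.pow_le_pow_right (by norm_num) hYh
    omega
  obtain ⟨P, hP, hPlo, hPhi, hcov⟩ := exists_good_prime h w' hh hw' D₁ D₂
    ((block_card q₁_prime q₁_injective t).trans hcard)
    ((block_card q₂_prime q₂_injective t).trans hcard)
    (fun d hd => (hlt₁ d hd).trans_le hpow)
    (fun d hd => (hlt₂ d hd).trans_le hpow) hnd₁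
  refine ⟨P, hP, hPlo, hPhi, ?_⟩
  have hN : 2 * (Q₁ s * Q₂ s) ≠ 0 := by
    have := Q₁_pos s
    have := Q₂_pos s
    positivity
  have hP2 : ¬ P ∣ 2 := by
    intro h2
    have h3 : P ≤ 2 := Nat.le_of_dvd (by norm_num) h2
    have h4 : (2 : ℕ) ^ 32 ≤ 2 ^ h := Nat.pow_le_pow_right (by norm_num) hh
    omega
  have hprod_dvd : ∀ a ∈ D₁, ∀ b ∈ D₂, a * b ∣ Q₁ s * Q₂ s := by
    intro a ha b hb
    have h1 := block_dvd t a ha
    have h2 := block_dvd t b hb
    rw [hs] at h1 h2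
    exact Nat.mul_dvd_mul h1 h2
  have hnP : ∀ a ∈ D₁, ∀ b ∈ D₂, ¬ P ∣ a * b := by
    intro a ha b hb hdvd
    rcases (Nat.Prime.dvd_mul hP).1 hdvd with h1 | h1
    · exact hnd₁ P hP hPlo a ha h1
    · exact hnd₂ P hP hPlo b hb h1
  have hsize : ∀ a ∈ D₁, ∀ b ∈ D₂, a * b ≤ 2 ^ (2 * Y * t) := by
    intro a ha b hb
    have h1 := (hlt₁ a ha).le
    have h2 := (hlt₂ b hb).le
    calc a * b ≤ (2 ^ Y) ^ t * (2 ^ Y) ^ t := Nat.mul_le_mul h1 h2
      _ = 2 ^ (2 * Y * t) := by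
        rw [← pow_mul, ← pow_add]
        congr 1
        ring
  intro m
  by_cases hm : P ∣ m
  · refine ⟨∅, by simp, by simp, by simp, by simp, ?_⟩
    simpa using ((Nat.modEq_zero_iff_dvd).2 hm).symm
  · obtain ⟨a₁, ha₁, a₂, ha₂, b₁, hb₁, b₂, hb₂, hmod⟩ := hcov m hm
    by_cases heq : a₁ * b₁ = a₂ * b₂
    · refine ⟨{2 * (a₁ * b₁)}, ?_, by simp, ?_, ?_, ?_⟩
      · intro x hx
        rw [Finset.mem_singleton] at hx
        subst hx
        exact Nat.mem_divisors.2 ⟨Nat.mul_dvd_mul_left 2 (hprod_dvd a₁ ha₁ b₁ hb₁), hN⟩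
      · intro t' ht' hdvd
        rw [Finset.mem_singleton] at ht'
        subst ht'
        rcases (Nat.Prime.dvd_mul hP).1 hdvd with h1 | h1
        · exact hP2 h1
        · exact hnP a₁ ha₁ b₁ hb₁ h1
      · rw [Finset.sum_singleton]
        exact Nat.mul_le_mul_left 2 (hsize a₁ ha₁ b₁ hb₁)
      · rw [Finset.sum_singleton]
        rw [← heq] at hmod
        rw [two_mul]
        exact hmod
    · refine ⟨{a₁ * b₁, a₂ * b₂}, ?_, Finset.card_le_two, ?_, ?_, ?_⟩
      · intro x hx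
        rw [Finset.mem_insert, Finset.mem_singleton] at hx
        rcases hx with rfl | rfl
        · exact Nat.mem_divisors.2
            ⟨(hprod_dvd a₁ ha₁ b₁ hb₁).trans (dvd_mul_left _ _), hN⟩
        · exact Nat.mem_divisors.2
            ⟨(hprod_dvd a₂ ha₂ b₂ hb₂).trans (dvd_mul_left _ _), hN⟩
      · intro x hx
        rw [Finset.mem_insert, Finset.mem_singleton] at hx
        rcases hx with rfl | rfl
        · exact hnP a₁ ha₁ b₁ hb₁
        · exact hnP a₂ ha₂ b₂ hb₂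
      · rw [Finset.sum_pair heq, two_mul]
        exact Nat.add_le_add (hsize a₁ ha₁ b₁ hb₁) (hsize a₂ ha₂ b₂ hb₂)
      · rw [Finset.sum_pair heq]
        exact hmod

end Vale.Agent.Lib.P012
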