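import Mathlib
import Vale.Agent.Lib.P012.Blocks

/-!
Part E: the multi-scale chain of reductions.
-/

namespace Vale.Agent.Lib.P012

open Finset

/-- Number of primes in each half of the pool. -/
def sI (I : ℕ) : ℕ := 2 ^ (I + 1)
/-- The pool primes are below `2 ^ YI I`. -/
def YI (I : ℕ) : ℕ := 2 * (I + 1)
/-- Exponent of `2` in the base step. -/
def JI (I : ℕ) : ℕ := 1 + 128 * YI I
/-- The product of all pool primes. -/
noncomputable def GI (I : ℕ) : ℕ := Q₁ (sI I) * Q₂ (sI I)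

lemma GI_pos (I : ℕ) : 0 < GI I := Nat.mul_pos (Q₁_pos _) (Q₂_pos _)

lemma two_pow_ge' (h : ℕ) (hh : 32 ≤ h) : 8 * h + 1 ≤ 2 ^ h := by
  induction h, hh using Nat.le_induction with
  | base => norm_num
  | succ n hn ih =>
    rw [pow_succ]
    omega

/-- All pool primes used are below `2 ^ YI I`. -/
lemma pool_lt (I : ℕ) (hI : 31 ≤ I) : ∀ i < 2 * sI I, pool i < 2 ^ YI I := by
  intro i hi
  set h := I + 1 with hh
  have h32 : 32 ≤ h := by omega
  have hY : YI I = 2 * h := rfl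
  have hs : sI I = 2 ^ h := rfl
  rw [hY]
  apply Nat.nth_lt_of_lt_count
  have hcount := prime_count h h32
  have hsub : (Finset.Ioc (2 ^ h) (2 ^ (2 * h))).filter Nat.Prime
      ⊆ (Finset.range (2 ^ (2 * h) + 1)).filter Nat.Prime := by
    intro x hx
    obtain ⟨h1, h2⟩ := Finset.mem_filter.1 hx
    refine Finset.mem_filter.2 ⟨Finset.mem_range.2 ?_, h2⟩
    have := (Finset.mem_Ioc.1 h1).2
    omega
  -- the prime at exactly `2 ^ (2 * h)` is not there; we count below it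
  have hsub' : ((Finset.range (2 ^ (2 * h) + 1)).filter Nat.Prime)
      ⊆ insert (2 ^ (2 * h)) ((Finset.range (2 ^ (2 * h))).filter Nat.Prime) := by
    intro x hx
    obtain ⟨h1, h2⟩ := Finset.mem_filter.1 hx
    have h3 := Finset.mem_range.1 h1
    by_cases hx' : x = 2 ^ (2 * h)
    · exact Finset.mem_insert.2 (Or.inl hx')
    · exact Finset.mem_insert.2 (Or.inr (Finset.mem_filter.2 ⟨Finset.mem_range.2 (by omega), h2⟩))
  have hcard : ((Finset.Ioc (2 ^ h) (2 ^ (2 * h))).filter Nat.Prime).card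
      ≤ Nat.count Nat.Prime (2 ^ (2 * h)) + 1 := by
    rw [Nat.count_eq_card_filter_range]
    calc _ ≤ _ := Finset.card_le_card (hsub.trans hsub')
      _ ≤ _ := Finset.card_insert_le _ _
  have hpw := two_pow_ge' h h32
  set u : ℕ := 2 ^ h with hu
  have hu2 : 2 ^ (2 * h) = u * u := by rw [two_mul, pow_add]
  rw [hu2] at hcount hcard ⊢
  rw [hs] at hi
  by_contra hcon
  push Not at hcon
  have hc1 : Nat.count Nat.Prime (u * u) ≤ 2 * u + 1 := by omega
  have hc2 : ((Finset.Ioc u (u * u)).filter Nat.Prime).card ≤ 2 * u + 2 := by omega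
  have hc3 : u * u ≤ 4 * h * (2 * u + 2) :=
    hcount.trans (Nat.mul_le_mul_left _ hc2)
  have hu3 : 8 * h * u + u ≤ u * u := by nlinarith
  have hu4 : 8 * h + 1 ≤ u := hpw
  have hu5 : 4 * h * (2 * u + 2) = 8 * h * u + 8 * h := by ring
  omega

lemma four_mul_le_two_pow (i : ℕ) (hi : 6 ≤ i) : 4 * i ≤ 2 ^ (i - 1) := by
  induction i, hi using Nat.le_induction with
  | base => norm_num
  | succ n hn ih =>
    have : n + 1 - 1 = (n - 1) + 1 := by omega
    rw [this, pow_succ]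
    omega

lemma three_not_dvd_GI (I : ℕ) : ¬ 3 ∣ GI I := by
  intro h
  have h3 : Nat.Prime 3 := Nat.prime_three
  rcases (Nat.Prime.dvd_mul h3).1 h with h' | h'
  · obtain ⟨i, _, hi⟩ := (Prime.dvd_finsetProd_iff h3.prime _).1 h'
    exact pool_ne_three _ ((Nat.prime_dvd_prime_iff_eq h3 (q₁_prime i)).1 hi).symm
  · obtain ⟨i, _, hi⟩ := (Prime.dvd_finsetProd_iff h3.prime _).1 h'
    exact pool_ne_three _ ((Nat.prime_dvd_prime_iff_eq h3 (q₂_prime i)).1 hi).symm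

lemma GI_le (I : ℕ) (hI : 31 ≤ I) : GI I ≤ 2 ^ (2 * YI I * sI I) := by
  have h1 : Q₁ (sI I) ≤ (2 ^ YI I) ^ sI I := by
    have := Finset.prod_le_pow_card (Finset.range (sI I)) q₁ (2 ^ YI I)
      (fun i hi => (pool_lt I hI _ (by have := Finset.mem_range.1 hi; omega)).le)
    simpa [Q₁] using this
  have h2 : Q₂ (sI I) ≤ (2 ^ YI I) ^ sI I := by
    have := Finset.prod_le_pow_card (Finset.range (sI I)) q₂ (2 ^ YI I)
      (fun i hi => (pool_lt I hI _ (by have := Finset.mem_range.1 hi; omega)).le)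
    simpa [Q₂] using this
  calc GI I ≤ (2 ^ YI I) ^ sI I * (2 ^ YI I) ^ sI I := Nat.mul_le_mul h1 h2
    _ = 2 ^ (2 * YI I * sI I) := by
      rw [← pow_mul, ← pow_add]
      congr 1
      ring

lemma le_GI (I : ℕ) : 2 ^ (2 * sI I) ≤ GI I := by
  have h1 : 2 ^ sI I ≤ Q₁ (sI I) := by
    have := Finset.pow_card_le_prod (Finset.range (sI I)) q₁ 2
      (fun i _ => (q₁_prime i).two_le)
    simpa [Q₁] using this
  have h2 : 2 ^ sI I ≤ Q₂ (sI I) := by
    have := Finset.pow_card_le_prod (Finset.range (sI I)) q₂ 2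
      (fun i _ => (q₂_prime i).two_le)
    simpa [Q₂] using this
  calc 2 ^ (2 * sI I) = 2 ^ sI I * 2 ^ sI I := by rw [two_mul, pow_add]
    _ ≤ GI I := Nat.mul_le_mul h1 h2

/-- One level of the chain. -/
theorem chain_step (I i R k l : ℕ) (hI : 31 ≤ I) (hi6 : 6 ≤ i) (hiI : i ≤ I) (hR : 0 < R)
    (h3 : ¬ 3 ∣ R) (hrep : Rep (2 ^ JI I * GI I * R) (2 ^ JI I * R) k)
    (hX : 2 ^ (2 * YI I * 2 ^ i + 1) ≤ 2 ^ JI I * R) :
    ∃ R' : ℕ, 0 < R' ∧ ¬ 3 ∣ R' ∧ Rep (2 ^ JI I * GI I * R') (2 ^ JI I * R') (k + l * 2) ∧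
      2 ^ (((I + 1 - i) * 2 ^ (i - 1)) * l) * (2 ^ JI I * R) ≤ 2 ^ JI I * R' := by
  set j := I + 1 - i with hj
  set p := 2 ^ (i - 1) with hp
  set h := j * p with hh
  have hj1 : 1 ≤ j := by omega
  have hIj : I + 1 = i + j := by omega
  have hpi : 2 * p = 2 ^ i := by
    rw [hp, ← pow_succ']
    congr 1
    omega
  have hp32 : 32 ≤ p := by
    have : 2 ^ 5 ≤ 2 ^ (i - 1) := Nat.pow_le_pow_right (by norm_num) (by omega)
    simpa [hp] using this
  have hYeq : YI I = 2 * (i + j) := by rw [YI, hIj]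
  have hp4 : 4 * i ≤ p := four_mul_le_two_pow i hi6
  have hYh : YI I ≤ h := by
    rw [hYeq, hh]
    nlinarith
  have h32 : 32 ≤ h := by
    rw [hh]
    nlinarith
  have hsI : 2 ^ i * 2 ^ j = sI I := by
    rw [sI, hIj, pow_add]
  have hcard : (2 ^ j) ^ (2 ^ i) = 2 ^ (2 * h) := by
    rw [← pow_mul]
    congr 1
    rw [hh, ← hpi]
    ring
  set w' := 2 * YI I / j with hw'
  have hw'le : w' ≤ 2 * h := by
    have : w' ≤ 2 * YI I := Nat.div_le_self _ _
    omega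
  have hbd : YI I * 2 ^ i ≤ h * (w' + 1) := by
    have h1 : 2 * YI I ≤ j * (w' + 1) := (Nat.lt_mul_div_succ (2 * YI I) hj1).le
    calc YI I * 2 ^ i = p * (2 * YI I) := by rw [← hpi]; ring
      _ ≤ p * (j * (w' + 1)) := Nat.mul_le_mul_left _ h1
      _ = h * (w' + 1) := by rw [hh]; ring
  obtain ⟨P, hP, hPlo, _, hcov⟩ := level_cover (YI I) (2 ^ i) (2 ^ j) (sI I) h w' hsI
    (by positivity) hcard (pool_lt I hI) hYh h32 hw'le hbd
  have hGpos := GI_pos I
  have hN : 2 ^ JI I * GI I * R ≠ 0 :=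
    mul_ne_zero (mul_ne_zero (pow_ne_zero _ (by norm_num)) hGpos.ne') hR.ne'
  have hdvd : 2 * (Q₁ (sI I) * Q₂ (sI I)) ∣ 2 ^ JI I * GI I * R := by
    have hJ : JI I = 1 + 128 * YI I := rfl
    rw [hJ, pow_add, pow_one, GI]
    exact ⟨2 ^ (128 * YI I) * R, by ring⟩
  have hcov' := hcov.mono_left hdvd hN
  have hB : 2 * 2 ^ (2 * YI I * 2 ^ i) ≤ 2 ^ JI I * R := by
    rw [← pow_succ']
    exact hX
  have hiter := hrep.iter hP.pos hN hcov' hB l
  refine ⟨R * P ^ l, Nat.mul_pos hR (pow_pos hP.pos l), ?_, ?_, ?_⟩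
  · intro hd
    rcases (Nat.Prime.dvd_mul Nat.prime_three).1 hd with h' | h'
    · exact h3 h'
    · have h4 := (Nat.prime_dvd_prime_iff_eq Nat.prime_three hP).1
        (Nat.Prime.dvd_of_dvd_pow Nat.prime_three h')
      have h5 : (2 : ℕ) ^ 32 ≤ 2 ^ h := Nat.pow_le_pow_right (by norm_num) h32
      omega
  · have e1 : 2 ^ JI I * GI I * R * P ^ l = 2 ^ JI I * GI I * (R * P ^ l) := by ring
    have e2 : 2 ^ JI I * R * P ^ l = 2 ^ JI I * (R * P ^ l) := by ring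
    rw [e1, e2] at hiter
    exact hiter
  · have hpow : 2 ^ (h * l) ≤ P ^ l := by
      rw [pow_mul]
      exact Nat.pow_le_pow_left hPlo.le l
    calc 2 ^ (h * l) * (2 ^ JI I * R) ≤ P ^ l * (2 ^ JI I * R) := Nat.mul_le_mul_right _ hpow
      _ = 2 ^ JI I * (R * P ^ l) := by ring

/-- The whole chain of levels `6 ≤ i ≤ I`. -/
theorem chain (I : ℕ) (hI : 31 ≤ I) : ∀ r, r ≤ I - 5 →
    ∃ R k : ℕ, 0 < R ∧ ¬ 3 ∣ R ∧ Rep (2 ^ JI I * GI I * R) (2 ^ JI I * R) k ∧
      2 ^ (2 * YI I * 2 ^ (6 + r) + 1) ≤ 2 ^ JI I * R ∧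
      k ≤ JI I + 1 + ∑ r' ∈ Finset.range r, 2 * (4 * YI I / (I - 5 - r') + 1) := by
  intro r
  induction r with
  | zero =>
    intro _
    refine ⟨1, JI I + 1, one_pos, by norm_num, ?_, ?_, by simp⟩
    · have hrep := rep_pow_two (JI I)
      have hG := GI_pos I
      have hN : 2 ^ JI I * GI I * 1 ≠ 0 :=
        mul_ne_zero (mul_ne_zero (pow_ne_zero _ (by norm_num)) hG.ne') one_ne_zero
      have := hrep.mono_left (N' := 2 ^ JI I * GI I * 1) ⟨GI I, by ring⟩ hN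
      simpa using this
    · have h1 : 2 * YI I * 2 ^ (6 + 0) + 1 = JI I := by
        simp only [JI, Nat.add_zero]
        norm_num
        ring
      rw [h1, mul_one]
  | succ r ih =>
    intro hr
    obtain ⟨R, k, hR, h3, hrep, hX, hk⟩ := ih (by omega)
    set i := 6 + r with hi
    have hi6 : 6 ≤ i := by omega
    have hiI : i ≤ I := by omega
    set j := I - 5 - r with hj
    have hj' : I + 1 - i = j := by omega
    have hj1 : 1 ≤ j := by omega
    set l := 4 * YI I / j + 1 with hl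
    obtain ⟨R', hR', h3', hrep', hX'⟩ := chain_step I i R k l hI hi6 hiI hR h3 hrep hX
    refine ⟨R', k + l * 2, hR', h3', hrep', ?_, ?_⟩
    · rw [hj'] at hX'
      have hpi : 2 * 2 ^ (i - 1) = 2 ^ i := by
        rw [← pow_succ']
        congr 1
        omega
      have hjl : 4 * YI I ≤ j * l := (Nat.lt_mul_div_succ (4 * YI I) hj1).le
      have hexp : 2 * YI I * 2 ^ i ≤ j * 2 ^ (i - 1) * l := by
        calc 2 * YI I * 2 ^ i = 2 ^ (i - 1) * (4 * YI I) := by rw [← hpi]; ring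
          _ ≤ 2 ^ (i - 1) * (j * l) := Nat.mul_le_mul_left _ hjl
          _ = j * 2 ^ (i - 1) * l := by ring
      have h6r : 6 + (r + 1) = i + 1 := by omega
      rw [h6r]
      have e : 2 * YI I * 2 ^ (i + 1) + 1 = 2 * YI I * 2 ^ i + (2 * YI I * 2 ^ i + 1) := by
        rw [pow_succ]
        ring
      rw [e, pow_add]
      calc 2 ^ (2 * YI I * 2 ^ i) * 2 ^ (2 * YI I * 2 ^ i + 1)
          ≤ 2 ^ (j * 2 ^ (i - 1) * l) * (2 ^ JI I * R) :=
            Nat.mul_le_mul (Nat.pow_le_pow_right (by norm_num) hexp) hX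
        _ ≤ 2 ^ JI I * R' := hX'
    · rw [Finset.sum_range_succ]
      have : 2 * (4 * YI I / (I - 5 - r) + 1) = l * 2 := by
        rw [hl, hj]
        ring
      rw [this]
      omega

/-- The final statement of the chain: `Rep N X k` with `N = G X`, `X` large. -/
theorem final_rep (I : ℕ) (hI : 31 ≤ I) :
    ∃ R k : ℕ, 0 < R ∧ ¬ 3 ∣ R ∧ Rep (2 ^ JI I * GI I * R) (2 ^ JI I * R) k ∧
      2 ^ (8 * YI I * sI I + 1) ≤ 2 ^ JI I * R ∧
      k ≤ JI I + 1 + ∑ r' ∈ Finset.range (I - 5), 2 * (4 * YI I / (I - 5 - r') + 1)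
        + 48 * YI I := by
  obtain ⟨R, k, hR, h3, hrep, hX, hk⟩ := chain I hI (I - 5) le_rfl
  have h65 : 6 + (I - 5) = I + 1 := by omega
  rw [h65] at hX
  have hsI : sI I = 2 ^ (I + 1) := rfl
  have hX0 : 2 ^ (2 * YI I * 2 ^ I + 1) ≤ 2 ^ JI I * R := by
    refine le_trans (Nat.pow_le_pow_right (by norm_num) ?_) hX
    have : 2 ^ I ≤ 2 ^ (I + 1) := Nat.pow_le_pow_right (by norm_num) (by omega)
    have := Nat.mul_le_mul_left (2 * YI I) this
    omega
  obtain ⟨R', hR', h3', hrep', hX'⟩ := chain_step I I R k (24 * YI I) hI (by omega) le_rfl hR h3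
    hrep hX0
  refine ⟨R', k + 24 * YI I * 2, hR', h3', hrep', ?_, by omega⟩
  have e1 : I + 1 - I = 1 := by omega
  rw [e1, one_mul] at hX'
  have hp : 2 ^ (I + 1) = 4 * 2 ^ (I - 1) := by
    have : I + 1 = (I - 1) + 2 := by omega
    rw [this, pow_add]
    rw [show (2:ℕ) ^ 2 = 4 by norm_num]
    ring
  have hexp : 8 * YI I * sI I + 1 = 2 ^ (I - 1) * (24 * YI I) + (2 * YI I * 2 ^ (I + 1) + 1) := by
    rw [hsI, hp]
    ring
  rw [hexp, pow_add]
  exact (Nat.mul_le_mul_left _ hX).trans hX'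

end Vale.Agent.Lib.P012
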