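import Mathlib
import Vale.Agent.Lib.P012.Chain

/-!
Part F: the greedy start and the passage from `Rep` to unit fraction expansions.
-/

namespace Vale.Agent.Lib.P012

open Finset

/-- The Sylvester step. -/
def syl (m : ℕ) : ℕ := m * (m - 1) + 1

lemma syl_mono {m n : ℕ} (h : m ≤ n) : syl m ≤ syl n := by
  unfold syl
  have : m - 1 ≤ n - 1 := by omega
  exact Nat.succ_le_succ (Nat.mul_le_mul h this)

lemma syl_iter_mono (t : ℕ) {m n : ℕ} (h : m ≤ n) : syl^[t] m ≤ syl^[t] n := by
  induction t generalizing m n with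
  | zero => simpa using h
  | succ t ih =>
    simp only [Function.iterate_succ, Function.comp]
    exact ih (syl_mono h)

lemma lt_syl {n : ℕ} (hn : 2 ≤ n) : n < syl n := by
  unfold syl
  obtain ⟨k, rfl⟩ : ∃ k, n = k + 2 := ⟨n - 2, by omega⟩
  have : k + 2 - 1 = k + 1 := by omega
  rw [this]
  nlinarith

/-- The greedy algorithm, run until the remaining fraction is small. -/
lemma greedy (W b : ℕ) (hb : 0 < b) :
    ∀ (t A π m : ℕ), 2 ≤ m → 1 ≤ π → π < m → W < syl^[t] m → A * (m - 1) < b * π →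
      ∃ (S : Finset ℕ) (A' π' : ℕ), (∀ n ∈ S, m ≤ n) ∧ S.card ≤ t ∧ 1 ≤ π' ∧
        π' ≤ max π (W ^ 2) ∧
        (A : ℚ) / ((b * π : ℕ) : ℚ) = ∑ n ∈ S, (1 : ℚ) / n + (A' : ℚ) / ((b * π' : ℕ) : ℚ) ∧
        A' * W ≤ b * π' ∧ ∀ n ∈ S, A' * n < b * π' := by
  intro t
  induction t with
  | zero =>
    intro A π m hm hπ hπm hW hA
    refine ⟨∅, A, π, by simp, by simp, hπ, le_max_left _ _, by simp, ?_, by simp⟩
    have : W ≤ m - 1 := by
      simp only [Function.iterate_zero, id_eq] at hW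
      omega
    exact (Nat.mul_le_mul_left A this).trans hA.le
  | succ t ih =>
    intro A π m hm hπ hπm hW hA
    by_cases hstop : A * W ≤ b * π
    · exact ⟨∅, A, π, by simp, by simp, hπ, le_max_left _ _, by simp, hstop, by simp⟩
    push Not at hstop
    have hBpos : 0 < b * π := Nat.mul_pos hb hπ
    have hApos : 0 < A := by
      rcases Nat.eq_zero_or_pos A with h | h
      · subst h; simp at hstop
      · exact h
    -- the least `n` with `B ≤ A * n`
    have hex : ∃ n, b * π ≤ A * n := ⟨W, hstop.le⟩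
    classical
    set n := Nat.find hex with hn_def
    have hn1 : b * π ≤ A * n := Nat.find_spec hex
    have hn0 : n ≠ 0 := by
      intro h0
      rw [h0] at hn1
      simp at hn1
      omega
    have hn2 : A * (n - 1) < b * π := by
      have := Nat.find_min hex (m := n - 1) (by omega)
      omega
    have hnW : n ≤ W := Nat.find_min' hex hstop.le
    have hmn : m ≤ n := by
      by_contra hcon
      push Not at hcon
      have : A * n ≤ A * (m - 1) := Nat.mul_le_mul_left _ (by omega)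
      omega
    have hn2' : 2 ≤ n := hm.trans hmn
    -- the new data
    set A₂ := A * n - b * π with hA₂
    set π₂ := π * n with hπ₂
    have hπ₂pos : 1 ≤ π₂ := Nat.mul_pos hπ (by omega)
    have hπ₂lt : π₂ < syl n := by
      have h1 : π ≤ n - 1 := by omega
      have h2 : π * n ≤ (n - 1) * n := Nat.mul_le_mul_right _ h1
      have h3 : syl n = n * (n - 1) + 1 := rfl
      rw [h3, hπ₂, mul_comm n]
      omega
    have hsyl2 : 2 ≤ syl n := (lt_syl hn2').le |> hn2'.trans
    have hA₂le : A₂ ≤ A := by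
      have : A * n = A * (n - 1) + A := by
        conv_lhs => rw [show n = (n - 1) + 1 by omega, mul_add, mul_one]
      omega
    have hA₂lt : A₂ * (n - 1) < b * π := lt_of_le_of_lt (Nat.mul_le_mul_right _ hA₂le) hn2
    have hA₂' : A₂ * (syl n - 1) < b * π₂ := by
      have h3 : syl n - 1 = n * (n - 1) := by
        unfold syl; omega
      rw [h3, hπ₂]
      have hb' : b * (π * n) = (b * π) * n := by ring
      rw [hb']
      have : A₂ * (n * (n - 1)) = (A₂ * (n - 1)) * n := by ring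
      rw [this]
      exact Nat.mul_lt_mul_of_pos_right hA₂lt (by omega)
    have hWt : W < syl^[t] (syl n) := by
      have h1 : syl^[t + 1] m = syl^[t] (syl m) := rfl
      rw [h1] at hW
      exact lt_of_lt_of_le hW (syl_iter_mono t (syl_mono hmn))
    obtain ⟨S', A', π', hS'm, hS'c, hπ', hπ'le, hS'eq, hA'W, hS'lt⟩ :=
      ih A₂ π₂ (syl n) hsyl2 hπ₂pos hπ₂lt hWt hA₂'
    have hnS' : n ∉ S' := fun h => absurd (hS'm n h) (by have := lt_syl hn2'; omega)
    -- rational identity for the step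
    have hQb : (b : ℚ) ≠ 0 := by positivity
    have hQπ : (π : ℚ) ≠ 0 := by
      have : 0 < π := hπ
      positivity
    have hQn : (n : ℚ) ≠ 0 := by
      have : 0 < n := by omega
      positivity
    have hQA₂ : (A₂ : ℚ) = A * n - b * π := by
      rw [hA₂, Nat.cast_sub hn1]
      push_cast
      ring
    have hstep : (A : ℚ) / ((b * π : ℕ) : ℚ) = (1 : ℚ) / n + (A₂ : ℚ) / ((b * π₂ : ℕ) : ℚ) := by
      rw [hQA₂, hπ₂]
      push_cast
      field_simp
      ring
    have hπ'pos : 0 < π' := hπ'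
    have hnn : ∀ x ∈ insert n S', m ≤ x := by
      intro x hx
      rcases Finset.mem_insert.1 hx with rfl | hx
      · exact hmn
      · have := hS'm x hx
        have := lt_syl hn2'
        omega
    have hπ'max : π' ≤ max π (W ^ 2) := by
      have h1 : π₂ ≤ W ^ 2 := by
        rw [hπ₂, sq]
        exact Nat.mul_le_mul (by omega) hnW
      have h2 : π' ≤ W ^ 2 := hπ'le.trans (max_le h1 le_rfl)
      exact h2.trans (le_max_right _ _)
    refine ⟨insert n S', A', π', hnn, ?_, hπ', hπ'max, ?_, hA'W, ?_⟩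
    · rw [Finset.card_insert_of_notMem hnS']
      omega
    · rw [Finset.sum_insert hnS', hstep, hS'eq]
      ring
    · intro x hx
      rcases Finset.mem_insert.1 hx with rfl | hx
      · -- the bound for `n` itself
        have h1 : (A' : ℚ) / ((b * π' : ℕ) : ℚ) ≤ (A₂ : ℚ) / ((b * π₂ : ℕ) : ℚ) := by
          rw [hS'eq]
          have : (0 : ℚ) ≤ ∑ n ∈ S', (1 : ℚ) / n := Finset.sum_nonneg (fun i _ => by positivity)
          linarith
        have h2 : A₂ * n < b * π₂ := by
          have h3 : n ≤ syl n - 1 := by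
            have := lt_syl hn2'
            omega
          exact lt_of_le_of_lt (Nat.mul_le_mul_left _ h3) hA₂'
        have hposb₂ : (0 : ℚ) < ((b * π₂ : ℕ) : ℚ) := by
          have : 0 < b * π₂ := Nat.mul_pos hb hπ₂pos
          exact_mod_cast this
        have hposb' : (0 : ℚ) < ((b * π' : ℕ) : ℚ) := by
          have : 0 < b * π' := Nat.mul_pos hb hπ'
          exact_mod_cast this
        have hxpos : (0 : ℚ) < n := by
          have : 0 < n := by omega
          exact_mod_cast this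
        have h4 : (A₂ : ℚ) / ((b * π₂ : ℕ) : ℚ) * n < 1 := by
          rw [div_mul_eq_mul_div, div_lt_one hposb₂]
          exact_mod_cast h2
        have h5 : (A' : ℚ) / ((b * π' : ℕ) : ℚ) * n < 1 :=
          lt_of_le_of_lt (mul_le_mul_of_nonneg_right h1 hxpos.le) h4
        rw [div_mul_eq_mul_div, div_lt_one hposb'] at h5
        exact_mod_cast h5
      · exact hS'lt x hx

/-- Passing to reciprocals of complementary divisors, scaled by `c`. -/
lemma sum_image_div {N : ℕ} (hN : 0 < N) {S : Finset ℕ} (hS : S ⊆ N.divisors) {c : ℕ} (hc : 0 < c) :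
    ∑ n ∈ S.image (fun d => c * (N / d)), (1 : ℚ) / n = ((∑ d ∈ S, d : ℕ) : ℚ) / ((c * N : ℕ) : ℚ) := by
  have hdiv : ∀ d ∈ S, d ∣ N := fun d hd => (Nat.mem_divisors.1 (hS hd)).1
  have hpos : ∀ d ∈ S, 0 < d := fun d hd => Nat.pos_of_dvd_of_pos (hdiv d hd) hN
  have hinj : Set.InjOn (fun d => c * (N / d)) (S : Set ℕ) := by
    intro d₁ h₁ d₂ h₂ h
    have h' : N / d₁ = N / d₂ := Nat.eq_of_mul_eq_mul_left hc h
    have e₁ : N / d₁ * d₁ = N := Nat.div_mul_cancel (hdiv d₁ h₁)
    have e₂ : N / d₂ * d₂ = N := Nat.div_mul_cancel (hdiv d₂ h₂)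
    have hq : 0 < N / d₂ := Nat.div_pos (Nat.le_of_dvd hN (hdiv d₂ h₂)) (hpos d₂ h₂)
    rw [h'] at e₁
    exact Nat.eq_of_mul_eq_mul_left hq (e₁.trans e₂.symm)
  rw [Finset.sum_image hinj]
  push_cast
  rw [Finset.sum_div]
  refine Finset.sum_congr rfl (fun d hd => ?_)
  have e : ((N / d : ℕ) : ℚ) * d = N := by
    exact_mod_cast Nat.div_mul_cancel (hdiv d hd)
  have hd0 : (d : ℚ) ≠ 0 := by
    have := hpos d hd
    positivity
  have hc0 : (c : ℚ) ≠ 0 := by positivity
  have hN0 : (N : ℚ) ≠ 0 := by positivity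
  have hq0 : ((N / d : ℕ) : ℚ) ≠ 0 := by
    intro h0
    rw [h0, zero_mul] at e
    exact hN0 e.symm
  rw [← e]
  field_simp

lemma mem_image_pos {N : ℕ} (hN : 0 < N) {S : Finset ℕ} (hS : S ⊆ N.divisors) {c : ℕ} (hc : 0 < c)
    {n : ℕ} (hn : n ∈ S.image (fun d => c * (N / d))) : 0 < n := by
  obtain ⟨d, hd, rfl⟩ := Finset.mem_image.1 hn
  have hdv := (Nat.mem_divisors.1 (hS hd)).1
  have hdp := Nat.pos_of_dvd_of_pos hdv hN
  exact Nat.mul_pos hc (Nat.div_pos (Nat.le_of_dvd hN hdv) hdp)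

/-- From representations by divisors to expansions in unit fractions. -/
theorem egyptian_of_rep {a b G X k T : ℕ} (hab : a < b)
    (hrep : Rep (G * X) X k) (h3 : ¬ 3 ∣ G * X) (hG : 2 ≤ G) (hX : 3 * b * G ^ 2 ≤ X)
    (hT : G < syl^[T] 2) :
    ∃ S : Finset ℕ, (∀ n ∈ S, 2 ≤ n) ∧ S.card ≤ T + 2 * k ∧ ∑ n ∈ S, (1 : ℚ) / n = a / b := by
  have hb : 0 < b := by omega
  obtain ⟨S, A', π', hSm, hSc, hπ', hπ'le, hSeq, hA'G, hSlt⟩ :=
    greedy G b hb T a 1 2 le_rfl le_rfl (by norm_num) hT (by simpa using hab)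
  have hπ'le' : π' ≤ G ^ 2 := by
    refine hπ'le.trans (max_le ?_ le_rfl)
    exact Nat.one_le_pow _ _ (by omega)
  set b' := b * π' with hb'
  have hb'pos : 0 < b' := Nat.mul_pos hb hπ'
  have hXpos : 0 < X := lt_of_lt_of_le (by positivity) hX
  set N := G * X with hN
  have hNpos : 0 < N := Nat.mul_pos (by omega) hXpos
  set q := A' * N / b' with hq
  set r := A' * N % b' with hr
  have hdiv : b' * q + r = A' * N := Nat.div_add_mod _ _
  have hqX : q ≤ X := by
    apply Nat.div_le_of_le_mul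
    calc A' * N = (A' * G) * X := by rw [hN]; ring
      _ ≤ b' * X := Nat.mul_le_mul_right _ hA'G
  have hrlt : r < b' := Nat.mod_lt _ hb'pos
  have h3r : 3 * r ≤ X := by
    have : 3 * b' ≤ X := by
      refine le_trans ?_ hX
      rw [hb']
      calc 3 * (b * π') = 3 * b * π' := by ring
        _ ≤ 3 * b * G ^ 2 := Nat.mul_le_mul_left _ hπ'le'
    omega
  obtain ⟨S₁, hS₁, hc₁, hs₁⟩ := hrep q hqX
  obtain ⟨S₂, hS₂, hc₂, hs₂⟩ := hrep (3 * r) h3r
  set U₁ := S₁.image (fun d => 1 * (N / d)) with hU₁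
  have hc3 : 0 < 3 * b' := by omega
  set U₂ := S₂.image (fun d => (3 * b') * (N / d)) with hU₂
  have hsum₁ := sum_image_div hNpos hS₁ (c := 1) one_pos
  have hsum₂ := sum_image_div hNpos hS₂ hc3
  rw [hs₁] at hsum₁
  rw [hs₂] at hsum₂
  rw [← hU₁] at hsum₁
  rw [← hU₂] at hsum₂
  have hQN : (N : ℚ) ≠ 0 := by positivity
  have hQb' : (b' : ℚ) ≠ 0 := by positivity
  have hQdiv : (b' : ℚ) * q + r = A' * N := by exact_mod_cast hdiv
  -- the two sums add up to the remainder
  have htot : ∑ n ∈ U₁, (1 : ℚ) / n + ∑ n ∈ U₂, (1 : ℚ) / n = (A' : ℚ) / b' := by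
    rw [hsum₁, hsum₂]
    push_cast
    field_simp
    linear_combination hQdiv
  have hnn₁ : (0 : ℚ) ≤ ∑ n ∈ U₁, (1 : ℚ) / n := Finset.sum_nonneg (fun i _ => by positivity)
  have hnn₂ : (0 : ℚ) ≤ ∑ n ∈ U₂, (1 : ℚ) / n := Finset.sum_nonneg (fun i _ => by positivity)
  -- every new term is at most `A' / b'`
  have hterm : ∀ n ∈ U₁ ∪ U₂, 0 < n ∧ b' ≤ A' * n := by
    intro n hn
    have hnpos : 0 < n := by
      rcases Finset.mem_union.1 hn with h | h
      · exact mem_image_pos hNpos hS₁ one_pos h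
      · exact mem_image_pos hNpos hS₂ hc3 h
    refine ⟨hnpos, ?_⟩
    have hle : (1 : ℚ) / n ≤ (A' : ℚ) / b' := by
      rcases Finset.mem_union.1 hn with h | h
      · have := Finset.single_le_sum (f := fun n : ℕ => (1 : ℚ) / n)
          (fun i _ => by positivity) h
        linarith
      · have := Finset.single_le_sum (f := fun n : ℕ => (1 : ℚ) / n)
          (fun i _ => by positivity) h
        linarith
    have hnQ : (0 : ℚ) < n := by exact_mod_cast hnpos
    have hbQ : (0 : ℚ) < b' := by exact_mod_cast hb'pos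
    rw [div_le_div_iff₀ hnQ hbQ] at hle
    have : (b' : ℚ) ≤ A' * n := by linarith
    exact_mod_cast this
  have hdisj₁₂ : Disjoint U₁ U₂ := by
    rw [Finset.disjoint_left]
    intro n h₁ h₂
    obtain ⟨d, hd, rfl⟩ := Finset.mem_image.1 h₁
    obtain ⟨d', hd', e⟩ := Finset.mem_image.1 h₂
    have hd3 : 3 ∣ 1 * (N / d) := by
      rw [← e]
      exact Dvd.dvd.mul_right (Dvd.intro _ rfl) _
    have hdv : N / d ∣ N := Nat.div_dvd_of_dvd (Nat.mem_divisors.1 (hS₁ hd)).1
    rw [one_mul] at hd3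
    exact h3 (hd3.trans hdv)
  have hdisj : Disjoint S (U₁ ∪ U₂) := by
    rw [Finset.disjoint_left]
    intro n hnS hnU
    have h1 := hSlt n hnS
    have h2 := (hterm n hnU).2
    omega
  refine ⟨S ∪ (U₁ ∪ U₂), ?_, ?_, ?_⟩
  · intro n hn
    rcases Finset.mem_union.1 hn with h | h
    · exact hSm n h
    · obtain ⟨hpos, hle⟩ := hterm n h
      have hA'pos : 0 < A' := by
        rcases Nat.eq_zero_or_pos A' with h0 | h0
        · rw [h0] at hle
          simp at hle
          omega
        · exact h0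
      have h4 : A' * G ≤ A' * n := hA'G.trans hle
      have h5 : G ≤ n := Nat.le_of_mul_le_mul_left h4 hA'pos
      omega
  · have h1 : U₁.card ≤ k := Finset.card_image_le.trans hc₁
    have h2 : U₂.card ≤ k := Finset.card_image_le.trans hc₂
    have h4 := Finset.card_union_le S (U₁ ∪ U₂)
    have h5 := Finset.card_union_le U₁ U₂
    omega
  · rw [Finset.sum_union hdisj, Finset.sum_union hdisj₁₂, htot]
    simp only [mul_one] at hSeq
    exact hSeq.symm

end Vale.Agent.Lib.P012
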