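import Mathlib
import Vale.Agent.Lib.P012.Greedy

/-!
Part G: the final count and the choice of parameters.
-/

namespace Vale.Agent.Lib.P012

open Finset

lemma syl_iter_lower (t : ℕ) : 2 ^ (2 ^ t) + 1 ≤ syl^[t + 1] 2 := by
  induction t with
  | zero => simp [syl]
  | succ t ih =>
    rw [Function.iterate_succ_apply']
    refine le_trans ?_ (syl_mono ih)
    unfold syl
    have e : 2 ^ (2 ^ (t + 1)) = 2 ^ (2 ^ t) * 2 ^ (2 ^ t) := by
      rw [← pow_add]
      congr 1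
      rw [pow_succ]
      ring
    rw [e]
    set u := 2 ^ (2 ^ t) with hu
    simp only [Nat.add_sub_cancel]
    nlinarith

/-- The expansion at level `I`, for all denominators up to a tower of height two in `I`. -/
theorem egyptian_level (I : ℕ) (hI : 31 ≤ I) {a b : ℕ} (hab : a < b)
    (hb : b ≤ 2 ^ (2 ^ (I + 2))) :
    ∃ S : Finset ℕ, (∀ n ∈ S, 2 ≤ n) ∧
      S.card ≤ (2 * I + 4) + 2 * (JI I + 1 +
        ∑ r' ∈ range (I - 5), 2 * (4 * YI I / (I - 5 - r') + 1) + 48 * YI I) ∧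
      ∑ n ∈ S, (1 : ℚ) / n = a / b := by
  obtain ⟨R, k, hR, h3R, hrep, hX, hk⟩ := final_rep I hI
  set G := GI I with hGdef
  set X := 2 ^ JI I * R with hXdef
  have hrep' : Rep (G * X) X k := by
    have : 2 ^ JI I * G * R = G * X := by rw [hXdef]; ring
    rwa [this] at hrep
  have h3 : ¬ 3 ∣ G * X := by
    intro h
    rcases (Nat.Prime.dvd_mul Nat.prime_three).1 h with h | h
    · exact three_not_dvd_GI I h
    · rcases (Nat.Prime.dvd_mul Nat.prime_three).1 h with h | h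
      · have := Nat.Prime.dvd_of_dvd_pow Nat.prime_three h
        norm_num at this
      · exact h3R h
  set s := sI I with hs
  have hs2 : 2 * s = 2 ^ (I + 2) := by
    rw [hs, sI]
    ring
  have hGge : 2 ^ (2 * s) ≤ G := le_GI I
  have hGle : G ≤ 2 ^ (2 * YI I * s) := GI_le I hI
  rw [hs2] at hGge
  have hbG : b ≤ G := hb.trans hGge
  have hG2 : 2 ≤ G := by
    have h1 : 2 ^ 1 ≤ 2 ^ (2 ^ (I + 2)) :=
      Nat.pow_le_pow_right (by norm_num) (Nat.one_le_two_pow)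
    have h2 : 2 ^ 1 = 2 := by norm_num
    omega
  set E := 2 * YI I * s with hE
  have hs1 : 1 ≤ s := Nat.one_le_two_pow
  have hY1 : 1 ≤ YI I := by
    rw [YI]
    omega
  have hE1 : 1 ≤ E := by
    rw [hE]
    have : 1 ≤ YI I * s := Nat.mul_pos hY1 hs1
    nlinarith
  have hXge : 3 * b * G ^ 2 ≤ X := by
    have h8 : 8 * YI I * s + 1 = 4 * E + 1 := by
      rw [hE]
      ring
    rw [h8] at hX
    refine le_trans ?_ hX
    have h3E : 3 ≤ 2 ^ (E + 1) := by
      have : 2 ^ 2 ≤ 2 ^ (E + 1) := Nat.pow_le_pow_right (by norm_num) (by omega)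
      omega
    calc 3 * b * G ^ 2 ≤ 3 * G * G ^ 2 := by gcongr
      _ = 3 * G ^ 3 := by ring
      _ ≤ 2 ^ (E + 1) * (2 ^ E) ^ 3 := Nat.mul_le_mul h3E (Nat.pow_le_pow_left hGle 3)
      _ = 2 ^ (4 * E + 1) := by
        rw [← pow_mul, ← pow_add]
        congr 1
        ring
  have hT : G < syl^[2 * I + 4] 2 := by
    have h1 : E ≤ 2 ^ (2 * I + 3) := by
      have h2 : E = (I + 1) * 2 ^ (I + 3) := by
        rw [hE, hs, YI, sI]
        ring
      have h3 : I + 1 ≤ 2 ^ I := Nat.lt_two_pow_self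
      rw [h2]
      calc (I + 1) * 2 ^ (I + 3) ≤ 2 ^ I * 2 ^ (I + 3) := Nat.mul_le_mul_right _ h3
        _ = 2 ^ (2 * I + 3) := by
          rw [← pow_add]
          congr 1
          ring
    have h2 : 2 ^ E ≤ 2 ^ (2 ^ (2 * I + 3)) := Nat.pow_le_pow_right (by norm_num) h1
    have h3 := syl_iter_lower (2 * I + 3)
    have h4 : 2 * I + 3 + 1 = 2 * I + 4 := rfl
    rw [h4] at h3
    omega
  obtain ⟨S, hS, hc, hs'⟩ := egyptian_of_rep hab hrep' h3 hG2 hXge hT
  refine ⟨S, hS, ?_, hs'⟩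
  omega

lemma sum_bound (n Y : ℕ) :
    ((∑ r ∈ range n, 2 * (4 * Y / (n - r) + 1) : ℕ) : ℝ)
      ≤ 2 * n + 8 * Y * (1 + Real.log n) := by
  have hharm : (∑ r ∈ range n, (1 : ℝ) / (((n - 1 - r : ℕ) : ℝ) + 1)) ≤ 1 + Real.log n := by
    have h := harmonic_le_one_add_log n
    have h2 : ((harmonic n : ℚ) : ℝ) = ∑ i ∈ range n, (1 : ℝ) / ((i : ℝ) + 1) := by
      simp [harmonic]
    rw [h2] at h
    have h3 := Finset.sum_range_reflect (fun i : ℕ => (1 : ℝ) / ((i : ℝ) + 1)) n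
    rw [← h3] at h
    exact h
  have hterm : ∀ r ∈ range n, ((2 * (4 * Y / (n - r) + 1) : ℕ) : ℝ)
      ≤ 2 + 8 * Y * ((1 : ℝ) / (((n - 1 - r : ℕ) : ℝ) + 1)) := by
    intro r hr
    have hr' := mem_range.1 hr
    have e : ((n - 1 - r : ℕ) : ℝ) + 1 = ((n - r : ℕ) : ℝ) := by
      have : n - r = (n - 1 - r) + 1 := by omega
      rw [this]
      push_cast
      ring
    rw [e]
    have h1 : ((4 * Y / (n - r) : ℕ) : ℝ) ≤ ((4 * Y : ℕ) : ℝ) / ((n - r : ℕ) : ℝ) := Nat.cast_div_le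
    have h2 : ((2 * (4 * Y / (n - r) + 1) : ℕ) : ℝ) = 2 * ((4 * Y / (n - r) : ℕ) : ℝ) + 2 := by
      push_cast
      ring
    rw [h2]
    have h3 : ((4 * Y : ℕ) : ℝ) / ((n - r : ℕ) : ℝ) = 4 * Y * ((1 : ℝ) / ((n - r : ℕ) : ℝ)) := by
      push_cast
      ring
    rw [h3] at h1
    linarith
  calc ((∑ r ∈ range n, 2 * (4 * Y / (n - r) + 1) : ℕ) : ℝ)
      = ∑ r ∈ range n, ((2 * (4 * Y / (n - r) + 1) : ℕ) : ℝ) := by
        rw [Nat.cast_sum]
    _ ≤ ∑ r ∈ range n, (2 + 8 * Y * ((1 : ℝ) / (((n - 1 - r : ℕ) : ℝ) + 1))) :=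
        Finset.sum_le_sum hterm
    _ = 2 * n + 8 * Y * ∑ r ∈ range n, (1 : ℝ) / (((n - 1 - r : ℕ) : ℝ) + 1) := by
        rw [Finset.sum_add_distrib, ← Finset.mul_sum]
        simp
        ring
    _ ≤ _ := by
        have : (0 : ℝ) ≤ 8 * Y := by positivity
        have := mul_le_mul_of_nonneg_left hharm this
        linarith

lemma total_bound (I : ℕ) (hI : 31 ≤ I) :
    (((2 * I + 4) + 2 * (JI I + 1 +
        ∑ r' ∈ range (I - 5), 2 * (4 * YI I / (I - 5 - r') + 1) + 48 * YI I) : ℕ) : ℝ)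
      ≤ 748 * ((I : ℝ) + 1) * (1 + Real.log ((I : ℝ) + 1)) := by
  have hsum := sum_bound (I - 5) (YI I)
  set Sg : ℕ := ∑ r' ∈ range (I - 5), 2 * (4 * YI I / (I - 5 - r') + 1) with hSg
  set x : ℝ := (I : ℝ) + 1 with hx
  have hI' : (31 : ℝ) ≤ I := by exact_mod_cast hI
  have hn : ((I - 5 : ℕ) : ℝ) = (I : ℝ) - 5 := by
    rw [Nat.cast_sub (by omega)]
    norm_num
  have hY : ((YI I : ℕ) : ℝ) = 2 * x := by
    rw [YI, hx]
    push_cast
    ring
  have hJ : ((JI I : ℕ) : ℝ) = 1 + 128 * (2 * x) := by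
    rw [JI, Nat.cast_add, Nat.cast_mul, hY]
    norm_num
  have hlog : Real.log ((I - 5 : ℕ) : ℝ) ≤ Real.log x := by
    apply Real.log_le_log
    · rw [hn]
      linarith
    · rw [hn, hx]
      linarith
  have hl0 : 0 ≤ Real.log x := Real.log_nonneg (by rw [hx]; linarith)
  have hx0 : 0 ≤ x := by rw [hx]; linarith
  have hSg : (Sg : ℝ) ≤ 2 * x + 16 * x * (1 + Real.log x) := by
    rw [hn, hY] at hsum
    have h1 : Real.log ((I : ℝ) - 5) ≤ Real.log x := by
      rw [← hn]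
      exact hlog
    have h2 : 8 * (2 * x) * (1 + Real.log ((I : ℝ) - 5)) ≤ 8 * (2 * x) * (1 + Real.log x) :=
      mul_le_mul_of_nonneg_left (by linarith) (by positivity)
    have h3 : 2 * ((I : ℝ) - 5) ≤ 2 * x := by
      rw [hx]
      linarith
    linarith
  have hcast : (((2 * I + 4) + 2 * (JI I + 1 + Sg + 48 * YI I) : ℕ) : ℝ)
      = 2 * (x - 1) + 4 + 2 * ((1 + 128 * (2 * x)) + 1 + (Sg : ℝ) + 48 * (2 * x)) := by
    push_cast
    rw [hJ, hY, hx]
    ring
  rw [hcast]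
  have hxl : x ≤ x * (1 + Real.log x) := by nlinarith
  have hx1 : 32 ≤ x := by rw [hx]; linarith
  nlinarith

lemma analytic {b M : ℕ} (hM : M = 2 ^ 30) (hb : 2 ^ M < b) :
    31 ≤ Nat.clog 2 (Nat.clog 2 b) ∧ b ≤ 2 ^ (2 ^ (Nat.clog 2 (Nat.clog 2 b) + 2)) ∧
    ((Nat.clog 2 (Nat.clog 2 b) : ℝ) + 1) ≤ 6 * Real.log (Real.log b) ∧
    1 + Real.log ((Nat.clog 2 (Nat.clog 2 b) : ℝ) + 1) ≤ 7 * Real.log (Real.log (Real.log b)) := by
  have h2 : 1 < 2 := by norm_num
  set c := Nat.clog 2 b with hc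
  set I := Nat.clog 2 c with hI
  have hMc : M < c := (Nat.lt_clog_iff_pow_lt h2).2 hb
  have hI30 : 30 < I := (Nat.lt_clog_iff_pow_lt h2).2 (by rw [← hM]; exact hMc)
  have hbc : b ≤ 2 ^ c := Nat.le_pow_clog h2 b
  have hcI : c ≤ 2 ^ I := Nat.le_pow_clog h2 c
  have hbI : b ≤ 2 ^ (2 ^ (I + 2)) :=
    hbc.trans (Nat.pow_le_pow_right (by norm_num)
      (hcI.trans (Nat.pow_le_pow_right (by norm_num) (by omega))))
  have hlog2 : (0.693 : ℝ) < Real.log 2 := by
    have := Real.log_two_gt_d9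
    linarith
  have hM32 : 32 ≤ M := by
    rw [hM]
    norm_num
  have hb32 : 2 ^ 32 < b := lt_of_le_of_lt (Nat.pow_le_pow_right (by norm_num) hM32) hb
  have hbR : (2 : ℝ) ^ 32 < b := by exact_mod_cast hb32
  have hb1 : 1 < b := lt_of_le_of_lt (Nat.one_le_two_pow) hb32
  set x := Real.log b with hx
  have hx22 : 22 ≤ x := by
    have h := Real.log_lt_log (by positivity) hbR
    rw [Real.log_pow] at h
    push_cast at h
    nlinarith
  set y := Real.log x with hy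
  have hy3 : 2.77 ≤ y := by
    have h : Real.log 16 ≤ y := Real.log_le_log (by norm_num) (by linarith)
    have e16 : Real.log 16 = 4 * Real.log 2 := by
      rw [show (16 : ℝ) = 2 ^ 4 by norm_num, Real.log_pow]
      norm_num
    linarith
  set z := Real.log y with hz
  have hz1 : 1 ≤ z := by
    rw [hz, Real.le_log_iff_exp_le (by linarith)]
    have := Real.exp_one_lt_d9
    linarith
  -- upper bounds
  have hc1 : 1 ≤ c := by omega
  have h1 : 2 ^ (c - 1) < b := by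
    have := Nat.pow_pred_clog_lt_self h2 hb1
    simpa using this
  have h1R : (2 : ℝ) ^ (c - 1) < b := by exact_mod_cast h1
  have h1L : ((c - 1 : ℕ) : ℝ) * Real.log 2 < x := by
    have h := Real.log_lt_log (by positivity) h1R
    rwa [Real.log_pow] at h
  have hcR : (c : ℝ) ≤ 3 * x := by
    have e : ((c - 1 : ℕ) : ℝ) = (c : ℝ) - 1 := by
      rw [Nat.cast_sub hc1]
      norm_num
    rw [e] at h1L
    have hc1R : (1 : ℝ) ≤ c := by exact_mod_cast hc1
    nlinarith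
  have hc2 : 1 < c := by omega
  have h3 : 2 ^ (I - 1) < c := by
    have := Nat.pow_pred_clog_lt_self h2 hc2
    simpa using this
  have h3R : (2 : ℝ) ^ (I - 1) < c := by exact_mod_cast h3
  have h3L : ((I - 1 : ℕ) : ℝ) * Real.log 2 < Real.log c := by
    have h := Real.log_lt_log (by positivity) h3R
    rwa [Real.log_pow] at h
  have hcpos : (0 : ℝ) < c := by
    have : 0 < c := by omega
    exact_mod_cast this
  have hlogc : Real.log c ≤ Real.log (3 * x) := Real.log_le_log hcpos hcR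
  have hlog3x : Real.log (3 * x) = Real.log 3 + y := Real.log_mul (by norm_num) (by linarith)
  have hlog3 : Real.log 3 ≤ 2 := by
    have := Real.log_le_sub_one_of_pos (show (0 : ℝ) < 3 by norm_num)
    linarith
  have hIR : (I : ℝ) + 1 ≤ 6 * y := by
    have e : ((I - 1 : ℕ) : ℝ) = (I : ℝ) - 1 := by
      rw [Nat.cast_sub (by omega)]
      norm_num
    rw [e] at h3L
    have hI1 : (1 : ℝ) ≤ I := by
      have : 1 ≤ I := by omega
      exact_mod_cast this
    nlinarith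
  have hlogI : 1 + Real.log ((I : ℝ) + 1) ≤ 7 * z := by
    have hIpos : (0 : ℝ) < (I : ℝ) + 1 := by positivity
    have h5 : Real.log ((I : ℝ) + 1) ≤ Real.log (6 * y) := Real.log_le_log hIpos hIR
    have h6 : Real.log (6 * y) = Real.log 6 + z := Real.log_mul (by norm_num) (by linarith)
    have h7 : Real.log 6 ≤ 5 := by
      have := Real.log_le_sub_one_of_pos (show (0 : ℝ) < 6 by norm_num)
      linarith
    linarith
  refine ⟨by omega, hbI, hIR, hlogI⟩

/-- `N(b) ≪ log log b · log log log b`. -/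
theorem main_thm : ∃ C b₀ : ℝ, 0 < C ∧ ∀ a b : ℕ, b₀ ≤ b → 0 < a → a < b →
    ∃ S : Finset ℕ, (∀ n ∈ S, 2 ≤ n) ∧
      (S.card : ℝ) ≤ C * Real.log (Real.log b) * Real.log (Real.log (Real.log b)) ∧
      ∑ n ∈ S, (1 : ℚ) / n = a / b := by
  obtain ⟨M, hM⟩ : ∃ M : ℕ, M = 2 ^ 30 := ⟨_, rfl⟩
  refine ⟨31416, ((2 ^ M + 1 : ℕ) : ℝ), by norm_num, ?_⟩
  intro a b hb _ha hab
  have hb' : 2 ^ M + 1 ≤ b := Nat.cast_le.1 hb
  obtain ⟨hI, hbI, hu1, hu2⟩ := analytic hM (Nat.lt_of_succ_le hb')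
  obtain ⟨S, hS, hc, hs⟩ := egyptian_level _ hI hab hbI
  refine ⟨S, hS, ?_, hs⟩
  have h1 := total_bound _ hI
  have h2 : (S.card : ℝ) ≤ _ := le_trans (Nat.cast_le.2 hc) h1
  refine h2.trans ?_
  set I := Nat.clog 2 (Nat.clog 2 b)
  have hI0 : (0 : ℝ) ≤ (I : ℝ) + 1 := by positivity
  have hI1 : (1 : ℝ) ≤ (I : ℝ) + 1 := by
    have : (0 : ℝ) ≤ I := by positivity
    linarith
  have hl0 : 0 ≤ Real.log ((I : ℝ) + 1) := Real.log_nonneg hI1
  have h3 : 748 * ((I : ℝ) + 1) * (1 + Real.log ((I : ℝ) + 1))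
      ≤ 748 * (6 * Real.log (Real.log b)) * (7 * Real.log (Real.log (Real.log b))) := by
    apply mul_le_mul
    · linarith
    · exact hu2
    · linarith
    · have : 0 ≤ 6 * Real.log (Real.log b) := le_trans hI0 hu1
      linarith
  refine h3.trans (le_of_eq ?_)
  ring

end Vale.Agent.Lib.P012
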